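import Vale.Agent.P225.Plan.Assembly

/-!
P225, module D: a plan for every word of moves (definitions in Plan/Spec).
-/

noncomputable section

namespace Vale.Agent.P225

open Matrix SU2 NormedSpace
open scoped ComplexOrder Matrix.Norms.L2Operator

attribute [local irreducible] band

/-- A plan for any word of moves. -/
theorem exists_cluster_plan (w : List Swap) (hw : ∀ s ∈ w, s.OK) :
    ∃ (l : List StageSpec) (C : ℝ), 0 < C ∧ ClusterSpec l (applyMoves w) C := by
  exact cluster_plan_aux w hw

end Vale.Agent.P225
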