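import Vale.Agent.P225.Plan.Body

/-!
P225, module D: the plans, built pair by pair.
-/

noncomputable section

namespace Vale.Agent.P225

open Matrix SU2 NormedSpace
open scoped ComplexOrder Matrix.Norms.L2Operator

attribute [local irreducible] band

/-- The dwell hypotheses up to the length `N`. -/
def Dwell (a : ℕ → Lbl → ℝ) (A : ℕ → ℝ) (N : ℕ) : Prop :=
  (∀ k ≤ N, ∀ t ∈ band, |a k t| ≤ A k) ∧
    ∀ k, 1 ≤ k → k < N → ∀ X ∈ band, ∀ Y ∈ band, cas4 X < cas4 Y →
      parity X = parity Y → 2 * ∑ i ∈ Finset.range k, A i ≤ a k Y - a k X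

theorem Dwell.mono {a : ℕ → Lbl → ℝ} {A : ℕ → ℝ} {M N : ℕ} (h : Dwell a A N) (hMN : M ≤ N) :
    Dwell a A M :=
  ⟨fun k hk => h.1 k (hk.trans hMN), fun k h1 h2 => h.2 k h1 (h2.trans_le hMN)⟩

/-- The product of the corrections. -/
def corrProd (ps : List (offSpace →ₗ[ℝ] offSpace)) (v : offSpace) : Matrix BPt BPt ℂ :=
  (ps.map fun p => 1 + ((p v : offSpace) : Matrix BPt BPt ℂ)).prod

/-- A list of stages producing the corrections `ps`. -/
structure PlanInv (l : List StageSpec) (ps : List (offSpace →ₗ[ℝ] offSpace)) : Prop where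
  good : ∀ s ∈ l, GoodStage s
  pos : 1 ≤ l.length
  resp : ∃ (g : ℕ → (ℕ → Lbl → ℝ) → ℝ) (L : ℕ → offSpace →ₗ[ℝ] ℂ), (∀ k, Continuous (g k)) ∧
    ∀ a A, Dwell a A l.length → (∀ k, k < l.length → g k a ≤ 0) ∧
      ∀ v, run l 0 a (fun k => Real.exp (g k a) • L k v) = corrProd ps v * run l 0 a 0

theorem PlanInv.init : PlanInv [idStage] [] := by
  have hm : IsMono (idStage.bandMat 0) id := idStage_spec.isMono fun z _ u hu => hu
  obtain ⟨hg, hfix⟩ := idStage_spec.good hm
  refine ⟨fun s hs => ?_, le_rfl, fun _ _ => 0, 0, fun _ => continuous_const,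
    fun a A _ => ⟨fun _ _ => le_rfl, fun v => ?_⟩⟩
  · rw [List.mem_singleton.1 hs]; exact hg
  · rw [corrProd, List.map_nil, List.prod_nil, one_mul]
    refine run_fixed (fun s hs => ?_) _ _ _
    rw [List.mem_singleton.1 hs]
    exact hfix

theorem PlanInv.append_fixed {l q : List StageSpec} {ps : List (offSpace →ₗ[ℝ] offSpace)}
    (h : PlanInv l ps) (hq : ∀ s ∈ q, GoodStage s ∧ ∀ z, s.bandMat z = s.bandMat 0) :
    PlanInv (l ++ q) ps := by
  obtain ⟨g, L, hg, hr⟩ := h.resp
  refine ⟨fun s hs => (List.mem_append.1 hs).elim (h.good s) fun hs => (hq s hs).1,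
    h.pos.trans (by simp), fun k => if k < l.length then g k else fun _ => 0, L,
    fun k => ?_, fun a A hd => ?_⟩
  · dsimp only
    split_ifs
    · exact hg k
    · exact continuous_const
  obtain ⟨h1, h2⟩ := hr a A (hd.mono (by simp))
  refine ⟨fun k _ => ?_, fun v => ?_⟩
  · dsimp only
    split_ifs with hk
    · exact h1 k hk
    · exact le_rfl
  · rw [run_append, run_append, run_fixed (fun s hs => (hq s hs).2) _ _ _, ← mul_assoc, ← h2 v]
    congr 1
    refine run_congr _ _ _ fun k _ hk => ?_
    rw [Nat.zero_add] at hk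
    simp only [hk, if_true]

theorem abs_segSum_le {a : ℕ → Lbl → ℝ} {A : ℕ → ℝ} {i j : ℕ}
    (h : ∀ k, i ≤ k → k < j → ∀ t ∈ band, |a k t| ≤ A k) {t : Lbl} (ht : t ∈ band) :
    |segSum a i j t| ≤ ∑ k ∈ Finset.Ico i j, A k :=
  (Finset.abs_sum_le_sum_abs _ _).trans (Finset.sum_le_sum fun k hk =>
    h k (Finset.mem_Ico.1 hk).1 (Finset.mem_Ico.1 hk).2 t ht)

/-- The slots of one family add one correction. -/
theorem PlanInv.append_body {l : List StageSpec} {ps : List (offSpace →ₗ[ℝ] offSpace)}
    (h : PlanInv l ps) {G : Fin 3} {X Y : UPoint} (hXY : IsSlotPair G X Y)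
    (hpar : parity X.lbl = parity Y.lbl) (F : SlotFamily X Y) (p : offSpace →ₗ[ℝ] offSpace)
    (hp : ∀ v x y, ((stageProd l)ᴴ * (p v : Matrix BPt BPt ℂ) * stageProd l) x y ≠ 0 →
      uOf x = X ∧ uOf y = Y) :
    PlanInv (l ++ (List.finRange F.n).flatMap F.chunk) (ps ++ [p]) := by
  obtain ⟨g, L, hg, hr⟩ := h.resp
  obtain ⟨π, W, hT, hW, hWB, hrun⟩ := exists_zero_run l (fun s hs => (h.good s hs).mono) 0
  have hlt : cas4 X.lbl < cas4 Y.lbl := hXY.2.1
  have hne : X.lbl ≠ Y.lbl := fun e => by rw [e] at hlt; exact lt_irrefl _ hlt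
  set T := stageProd l
  set B := (List.finRange F.n).flatMap F.chunk
  set m := l.length with hm
  obtain ⟨L', hL'⟩ := F.run_body hne (List.finRange F.n) m
  have hTT : T * Tᴴ = 1 := adjoint_right_inv hT.1
  have hTr : IsRealBand T := stageProd_real h.good
  let ψ : offSpace →ₗ[ℝ] Matrix BPt BPt ℂ :=
    (((LinearMap.mulLeft ℝ Tᴴ).comp (LinearMap.mulRight ℝ T)).comp offSpace.subtype).comp p
  have hψ : ∀ v, ψ v = Tᴴ * (p v : Matrix BPt BPt ℂ) * T := fun v => by
    simp [ψ, mul_assoc]
  let g' : ℕ → (ℕ → Lbl → ℝ) → ℝ := fun k a =>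
    if k < m then g k a
    else W a X - W a Y + (segSum a m (k + 1) X.lbl - segSum a m (k + 1) Y.lbl)
  let L2 : ℕ → offSpace →ₗ[ℝ] ℂ := fun k => if k < m then L k else (L' k).comp ψ
  refine ⟨fun s hs => (List.mem_append.1 hs).elim (h.good s) (F.good _ s),
    h.pos.trans (by rw [List.length_append]; omega), g', L2, fun k => ?_, fun a A hd => ?_⟩
  · by_cases hk : k < m
    · simp only [g', hk, if_true]; exact hg k
    · simp only [g', hk, if_false]
      have hs : ∀ t, Continuous fun a : ℕ → Lbl → ℝ => segSum a m (k + 1) t := fun t =>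
        continuous_finsetSum _ fun i _ => (continuous_apply t).comp (continuous_apply i)
      exact ((hW X).sub (hW Y)).add ((hs _).sub (hs _))
  obtain ⟨h1, h2⟩ := hr a A (hd.mono (by rw [List.length_append]; omega))
  have hWb : ∀ u, |W a u| ≤ ∑ i ∈ Finset.range m, A i := by
    intro u
    have := hWB a A (fun k _ hk => hd.1 k (by simp at hk ⊢; omega)) u
    rwa [Nat.zero_add, ← Finset.range_eq_Ico] at this
  refine ⟨fun k hk => ?_, fun v => ?_⟩
  · by_cases hkm : k < m
    · simp only [g', hkm, if_true]; exact h1 k hkm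
    · simp only [g', hkm, if_false]
      have hmk : m ≤ k := by omega
      have hb : ∀ t ∈ band, |segSum a m k t| ≤ ∑ i ∈ Finset.Ico m k, A i := fun t ht =>
        abs_segSum_le (fun i _ hi => hd.1 i (by omega)) ht
      have hdom := hd.2 k (h.pos.trans hmk) hk _ X.mem _ Y.mem hlt hpar
      rw [← Finset.sum_range_add_sum_Ico A hmk] at hdom
      have eX : ∀ t, segSum a m (k + 1) t = segSum a m k t + a k t := fun t =>
        Finset.sum_Ico_succ_top hmk _
      rw [eX, eX]
      linarith [abs_le.1 (hWb X), abs_le.1 (hWb Y), abs_le.1 (hb _ X.mem), abs_le.1 (hb _ Y.mem)]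
  · set c := Real.exp (W a X - W a Y) with hc
    have hold : run l 0 a (fun k => Real.exp (g' k a) • L2 k v) = corrProd ps v * run l 0 a 0 := by
      rw [← h2 v]
      refine run_congr _ _ _ fun k _ hk => ?_
      have hk' : k < m := by omega
      simp only [g', L2, hk', if_true]
    have hnew : run B m a (fun k => Real.exp (g' k a) • L2 k v) =
        (1 + c • ψ v) * clsDiag (onLbl (segSum a m (m + B.length))) := by
      have hspan : ∑ i, F.piece i (ψ v) = ψ v := by
        refine F.span (ψ v) ?_ fun x y hxy => ?_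
        · rw [hψ]
          exact ((hTr.adjoint hT.1).mul (offSpace_spec (p v).2).1).mul hTr
        · rw [hψ] at hxy
          exact hp v x y hxy
      rw [hL' a c (ψ v) _ fun k h1 _ => ?_, ← Fin.sum_univ_def, hspan]
      have hk : ¬k < m := by omega
      simp only [g', L2, hk, if_false, LinearMap.comp_apply, hc]
      rw [← Real.exp_add]
    have hzero : run B m a 0 = clsDiag (onLbl (segSum a m (m + B.length))) := by
      rw [hL' a 0 0 0 fun k _ _ => by simp]
      rw [zero_smul, add_zero, one_mul]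
    have hmid : run l 0 a 0 * (1 + c • ψ v) = (1 + (p v : Matrix BPt BPt ℂ)) * run l 0 a 0 := by
      rw [hrun, mul_assoc, clsDiag_mul_one_add (X := X) (Y := Y) (W a) fun x y hxy => ?_, smul_smul,
        hc, ← Real.exp_add, show W a Y - W a X + (W a X - W a Y) = 0 by ring, Real.exp_zero,
        one_smul, ← mul_assoc, ← mul_assoc, hψ]
      · refine congrArg (· * clsDiag (W a)) ?_
        rw [mul_add, add_mul, mul_one, one_mul, ← mul_assoc, ← mul_assoc, hTT, one_mul]
      · have hxy' : (Tᴴ * (p v : Matrix BPt BPt ℂ) * T) x y ≠ 0 := fun e => hxy (by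
          rw [Matrix.smul_apply, hψ, e, smul_zero])
        obtain ⟨e1, e2⟩ := hp v x y hxy'
        rw [e1, e2]
        exact ⟨rfl, rfl⟩
    rw [run_append, run_append, Nat.zero_add, ← hm, hold, hnew, hzero,
      mul_assoc (corrProd ps v), ← mul_assoc (run l 0 a 0), hmid, corrProd, corrProd,
      List.map_append, List.map_singleton, List.prod_append, List.prod_singleton]
    simp only [mul_assoc]

/-- One more pair of classes. -/
theorem PlanInv.step {l : List StageSpec} {ps : List (offSpace →ₗ[ℝ] offSpace)}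
    (h : PlanInv l ps) (hl : IsMono (stageProd l) id) {P Q : UPoint}
    (hPQ : (P, Q) ∈ offPairs) :
    ∃ l', PlanInv l' (ps ++ [offPart P Q]) ∧ IsMono (stageProd l') id := by
  obtain ⟨hpar, hne⟩ := mem_offPairs.1 hPQ
  obtain ⟨w, G, hw, hslot⟩ := moves_to_slot hpar hne
  obtain ⟨qr, hqr, hqr1, -⟩ := exists_wordStages w.reverse fun s hs => hw s (List.mem_reverse.1 hs)
  obtain ⟨q, hq, hq1, -⟩ := exists_wordStages w hw
  obtain ⟨F⟩ := exists_slot_family hslot
  have hback : ∀ u, applyMoves w (applyMoves w.reverse u) = u := fun u => by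
    simpa using applyMoves_reverse w.reverse u
  have hl1 : IsMono (stageProd (l ++ qr)) (id ∘ applyMoves w.reverse) := by
    rw [stageProd_append]; exact hl.mul hqr1
  have hbody := (h.append_fixed hqr).append_body hslot
    ((applyMoves_parity w P).trans (hpar.trans (applyMoves_parity w Q).symm)) F (offPart P Q)
    (fun v x y hxy => ?_)
  · refine ⟨_, hbody.append_fixed hq, ?_⟩
    rw [stageProd_append, stageProd_append, F.stageProd_body, mul_one]
    have := hl1.mul hq1
    rwa [show (id ∘ applyMoves w.reverse) ∘ applyMoves w = id from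
      funext fun u => applyMoves_reverse w u] at this
  · rw [Matrix.mul_apply] at hxy
    obtain ⟨b, -, hb⟩ := Finset.exists_ne_zero_of_sum_ne_zero hxy
    rw [Matrix.mul_apply] at hb
    obtain ⟨c, -, hc⟩ := Finset.exists_ne_zero_of_sum_ne_zero (left_ne_zero_of_mul hb)
    have e1 : uOf c = applyMoves w.reverse (uOf x) := Classical.byContradiction fun e =>
      left_ne_zero_of_mul hc (by
        rw [conjTranspose_apply, hl1.2 c x e, star_zero])
    have e2 : uOf b = applyMoves w.reverse (uOf y) := Classical.byContradiction fun e =>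
      right_ne_zero_of_mul hb (hl1.2 b y e)
    have := classPart_supp (right_ne_zero_of_mul hc)
    rw [e1, e2] at this
    exact ⟨by rw [← this.1, hback], by rw [← this.2, hback]⟩

theorem exists_plan_pairs (es : List (UPoint × UPoint)) (hes : ∀ e ∈ es, e ∈ offPairs) :
    ∀ (l : List StageSpec) (ps : List (offSpace →ₗ[ℝ] offSpace)), PlanInv l ps →
      IsMono (stageProd l) id →
      ∃ l', PlanInv l' (ps ++ es.map fun e => offPart e.1 e.2) ∧ IsMono (stageProd l') id := by
  induction es with
  | nil => intro l ps h hl; exact ⟨l, by simpa using h, hl⟩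
  | cons e es ih =>
    intro l ps h hl
    obtain ⟨l', h', hl'⟩ := h.step hl (hes e (List.mem_cons_self ..))
    obtain ⟨l'', h'', hl''⟩ := ih (fun x hx => hes x (List.mem_cons_of_mem _ hx)) l' _ h' hl'
    exact ⟨l'', by simpa using h'', hl''⟩

/-- One constant bounds all stages. -/
theorem exists_stage_bound {l : List StageSpec} (hl : ∀ s ∈ l, GoodStage s) :
    ∃ c, 0 ≤ c ∧ ∀ s ∈ l, ∀ z, ‖s.bandMat z‖ ≤ 1 + c * ‖z‖ := by
  induction l with
  | nil => exact ⟨0, le_rfl, by simp⟩
  | cons s l ih =>
    obtain ⟨c, hc, hcb⟩ := ih fun t ht => hl t (List.mem_cons_of_mem _ ht)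
    obtain ⟨d, hd, hdb⟩ := (hl s (List.mem_cons_self ..)).bound
    refine ⟨c + d, add_nonneg hc hd, fun t ht z => ?_⟩
    rcases List.mem_cons.1 ht with rfl | ht
    · exact (hdb z).trans (by nlinarith [norm_nonneg z])
    · exact (hcb t ht z).trans (by nlinarith [norm_nonneg z])

/-- The conclusion of `exists_cluster_plan`. -/
theorem cluster_plan_aux (w : List Swap) (hw : ∀ s ∈ w, s.OK) :
    ∃ (l : List StageSpec) (C : ℝ), 0 < C ∧ ClusterSpec l (applyMoves w) C := by
  classical
  set es := offPairs.toList with hes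
  obtain ⟨l0, h0, hl0⟩ := exists_plan_pairs es (fun e he => Finset.mem_toList.1 he) _ _
    PlanInv.init (by
      rw [stageProd_cons, stageProd_nil, mul_one]
      exact idStage_spec.isMono fun z _ u hu => hu)
  obtain ⟨q, hq, hq1, -⟩ := exists_wordStages w hw
  have h := h0.append_fixed hq
  have hπ : IsMono (stageProd (l0 ++ q)) (applyMoves w) := by
    rw [stageProd_append]
    have := hl0.mul hq1
    exact this
  set l := l0 ++ q
  rw [List.nil_append] at h
  obtain ⟨g, L, hg, hr⟩ := h.resp
  obtain ⟨c, hc, hcb⟩ := exists_stage_bound h.good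
  obtain ⟨π', W, -, -, -, hrun⟩ := exists_zero_run l (fun s hs => (h.good s hs).mono) 0
  let parts : Fin es.length → (offSpace →ₗ[ℝ] offSpace) := fun e => offPart es[e].1 es[e].2
  let nR : ℕ → ℝ := fun k => ‖LinearMap.toContinuousLinearMap (L k)‖
  let nP : Fin es.length → ℝ := fun e => ‖LinearMap.toContinuousLinearMap (parts e)‖
  set C := 1 + c + (es.length : ℝ) + ∑ k ∈ Finset.range l.length, nR k + ∑ e, nP e with hC
  have hnR : 0 ≤ ∑ k ∈ Finset.range l.length, nR k := Finset.sum_nonneg fun k _ => norm_nonneg (LinearMap.toContinuousLinearMap (L k))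
  have hnP : 0 ≤ ∑ e, nP e := Finset.sum_nonneg fun e _ => norm_nonneg (LinearMap.toContinuousLinearMap (parts e))
  have hn : (0 : ℝ) ≤ es.length := Nat.cast_nonneg _
  refine ⟨l, C, by linarith, ?_, fun s hs => (h.good s hs).ok.tangent,
    fun s hs => (h.good s hs).ok.target, fun s hs => (h.good s hs).ok.closed,
    fun s hs => (h.good s hs).mono, fun s hs z => ?_, fun a x y hxy => ?_, ?_⟩
  · intro e
    have := h.pos
    rw [e] at this
    simp at this
  · refine (hcb s hs z).trans (add_le_add le_rfl (mul_le_mul_of_nonneg_right ?_ (norm_nonneg z)))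
    linarith
  · rw [clusterProd_eq, hrun, mul_assoc, labDiag_eq, clsDiag_mul, clsDiag, mul_diagonal,
      hπ.2 x y hxy, zero_mul]
  refine ⟨es.length, fun a k => if k < l.length then Real.exp (g k a) • L k else 0, parts,
    fun k v => ?_, ?_, fun e v => ?_, by linarith, fun a A hA hdom => ?_⟩
  · by_cases hk : k < l.length
    · simp only [hk, if_true, LinearMap.smul_apply]
      exact (Real.continuous_exp.comp (hg k)).smul continuous_const
    · simp only [hk, if_false]
      exact continuous_const
  · refine Eq.trans ?_ sum_offPart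
    rw [← Finset.sum_map_toList offPairs, ← hes]
    exact Fin.sum_univ_fun_getElem es fun e => offPart e.1 e.2
  · have := (LinearMap.toContinuousLinearMap (parts e)).le_opNorm v
    refine le_trans this (mul_le_mul_of_nonneg_right ?_ (norm_nonneg _))
    linarith [Finset.single_le_sum (f := nP) (fun e _ => norm_nonneg (LinearMap.toContinuousLinearMap (parts e))) (Finset.mem_univ e)]
  · obtain ⟨h1, h2⟩ := hr a A ⟨hA, hdom⟩
    refine ⟨fun k v => ?_, fun v => ?_⟩
    · by_cases hk : k < l.length
      · simp only [hk, if_true, LinearMap.smul_apply, norm_smul, Real.norm_eq_abs, Real.abs_exp]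
        calc Real.exp (g k a) * ‖L k v‖ ≤ 1 * (nR k * ‖(v : Matrix BPt BPt ℂ)‖) := by
              refine mul_le_mul (Real.exp_le_one_iff.2 (h1 k hk)) ?_ (norm_nonneg _) zero_le_one
              exact (LinearMap.toContinuousLinearMap (L k)).le_opNorm v
          _ ≤ C * ‖(v : Matrix BPt BPt ℂ)‖ := by
              rw [one_mul]
              refine mul_le_mul_of_nonneg_right ?_ (norm_nonneg _)
              linarith [Finset.single_le_sum (f := nR) (fun e _ => norm_nonneg (LinearMap.toContinuousLinearMap (L e)))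
                (Finset.mem_range.2 hk)]
      · simp only [hk, if_false, LinearMap.zero_apply, norm_zero]
        exact mul_nonneg (by linarith) (norm_nonneg _)
    · rw [clusterProd_eq, clusterProd_eq, ← mul_assoc]
      refine congrArg (· * labDiag (a l.length)) ?_
      rw [run_congr l 0 a (z' := fun k => Real.exp (g k a) • L k v) fun k _ hk => by
        rw [Nat.zero_add] at hk; simp [hk], h2 v]
      refine congrArg (fun X : List (Matrix BPt BPt ℂ) => X.prod * run l 0 a 0) ?_
      exact List.ext_getElem (by simp) (by simp [parts])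

end Vale.Agent.P225
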