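import Vale.Agent.P225.Plan.Prod

/-!
P225, module D: the stages of a plan, and the stages of one slot family run one after another.
-/

noncomputable section

namespace Vale.Agent.P225

open Matrix SU2 NormedSpace
open scoped ComplexOrder Matrix.Norms.L2Operator

attribute [local irreducible] band

/-- A stage fit for a plan. -/
structure GoodStage (s : StageSpec) : Prop where
  ok : StageOK s
  mono : ∃ σ, IsMono (s.bandMat 0) σ
  bound : ∃ c, 0 ≤ c ∧ ∀ z, ‖s.bandMat z‖ ≤ 1 + c * ‖z‖

theorem norm_le_one_of_unitary {U : Matrix BPt BPt ℂ} (h : Uᴴ * U = 1) : ‖U‖ ≤ 1 := by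
  have h1 := Matrix.l2_opNorm_conjTranspose_mul_self (1 : Matrix BPt BPt ℂ)
  have h2 := Matrix.l2_opNorm_conjTranspose_mul_self U
  rw [conjTranspose_one, one_mul] at h1
  rw [h] at h2
  have h3 : ∀ x : ℝ, 0 ≤ x → x * x ≤ 1 → x ≤ 1 := fun x hx hx2 => by nlinarith
  have h4 : ‖(1 : Matrix BPt BPt ℂ)‖ ≤ 1 := by
    by_contra hc
    nlinarith [not_le.1 hc]
  exact h3 _ (norm_nonneg U) (by linarith)

/-- The permutation of a monomial stage, given on classes. -/
theorem MonoStage.isMono {s : StageSpec} {f : Crd → Crd} {c : Crd → ℂ} (h : MonoStage s f c)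
    {σ : UPoint → UPoint}
    (hσ : ∀ z : Crd, z.Valid → ∀ u : UPoint, cls z = (u.lbl, u.idx) →
      cls (f z) = ((σ u).lbl, (σ u).idx)) : IsMono (s.bandMat 0) σ := by
  rw [h.mat 0]
  refine ⟨monoBand_unitary h.perm, fun x y hxy => ?_⟩
  simp only [monoBand]
  rw [if_neg]
  intro e
  refine hxy (uOf_eq ?_)
  rw [e]
  exact hσ _ (bcrd_valid y) _ (cls_bcrd y)

theorem MonoStage.good {s : StageSpec} {f : Crd → Crd} {c : Crd → ℂ} (h : MonoStage s f c)
    {σ : UPoint → UPoint} (hσ : IsMono (s.bandMat 0) σ) :
    GoodStage s ∧ ∀ z, s.bandMat z = s.bandMat 0 := by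
  have hfix : ∀ z, s.bandMat z = s.bandMat 0 := fun z => (h.mat z).trans (h.mat 0).symm
  refine ⟨⟨h.ok, ⟨σ, hσ⟩, 0, le_rfl, fun z => ?_⟩, hfix⟩
  rw [hfix z, zero_mul, add_zero]
  exact norm_le_one_of_unitary hσ.1

theorem ClsStage.spec {s : StageSpec} (h : ClsStage s) : GoodStage s ∧ ClsFixed s := by
  obtain ⟨f, c, hm, hcls⟩ := h
  have hid : IsMono (s.bandMat 0) id := hm.isMono fun z hz u hu => (hcls z hz).trans hu
  exact ⟨(hm.good hid).1, hid, (hm.good hid).2⟩

theorem swap_isMono {s : StageSpec} {f : Crd → Crd} {c : Crd → ℂ} {w : Swap} (hw : w.OK)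
    (h : MonoStage s f c) (hcls : ∀ z : Crd, z.Valid → cls (f z) = w.raw (cls z)) :
    IsMono (s.bandMat 0) w.apply :=
  h.isMono fun z hz u hu => by rw [hcls z hz, hu, apply_eq_raw hw]

/-- Stages realising a word: their product sends the class `u` to `applyMoves w u`. -/
theorem exists_wordStages (w : List Swap) (hw : ∀ s ∈ w, s.OK) :
    ∃ q : List StageSpec, (∀ s ∈ q, GoodStage s ∧ ∀ z, s.bandMat z = s.bandMat 0) ∧
      IsMono (stageProd q) (applyMoves w) ∧ IsRealBand (stageProd q) := by
  induction w with
  | nil => exact ⟨[], by simp, isMono_one, IsRealBand.one⟩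
  | cons m w ih =>
    obtain ⟨q, hq, hmono, hreal⟩ := ih fun s hs => hw s (List.mem_cons_of_mem _ hs)
    obtain ⟨s, f, c, hs, hcls⟩ := exists_swapStage (hw m (List.mem_cons_self ..))
    have hσ := swap_isMono (hw m (List.mem_cons_self ..)) hs hcls
    refine ⟨q ++ [s], fun t ht => ?_, ?_, ?_⟩
    · rcases List.mem_append.1 ht with ht | ht
      · exact hq t ht
      · rw [List.mem_singleton.1 ht]; exact hs.good hσ
    · rw [stageProd_append, stageProd_cons, stageProd_nil, mul_one]
      exact hmono.mul hσ
    · rw [stageProd_append, stageProd_cons, stageProd_nil, mul_one]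
      exact hreal.mul (hs.ok.real 0)

theorem stageProd_real {l : List StageSpec} (hl : ∀ s ∈ l, GoodStage s) :
    IsRealBand (stageProd l) := by
  induction l with
  | nil => exact IsRealBand.one
  | cons s l ih =>
    exact ((hl s (List.mem_cons_self ..)).ok.real 0).mul
      (ih fun t ht => hl t (List.mem_cons_of_mem _ ht))

/-! The stages of a slot family. -/

variable {X Y : UPoint}

/-- Conjugated slot number `i`. -/
def SlotFamily.chunk (F : SlotFamily X Y) (i : Fin F.n) : List StageSpec :=
  F.pre i ++ F.slot i :: F.post i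

/-- What slot `i` contributes to a correction. -/
def SlotFamily.piece (F : SlotFamily X Y) (i : Fin F.n) (v : Matrix BPt BPt ℂ) :
    Matrix BPt BPt ℂ :=
  stageProd (F.pre i) * F.E i (F.lam i v) * stageProd (F.post i)

theorem SlotFamily.slotMat_zero (F : SlotFamily X Y) (i : Fin F.n) : (F.slot i).bandMat 0 = 1 := by
  rw [F.slotMat, map_zero, add_zero]

theorem SlotFamily.pre_cls (F : SlotFamily X Y) (i : Fin F.n) : ∀ s ∈ F.pre i, ClsFixed s :=
  fun s hs => (F.preCls i s hs).spec.2

theorem SlotFamily.post_cls (F : SlotFamily X Y) (i : Fin F.n) : ∀ s ∈ F.post i, ClsFixed s :=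
  fun s hs => (F.postCls i s hs).spec.2

theorem SlotFamily.E_supp (F : SlotFamily X Y) (i : Fin F.n) (z : ℂ) :
    LabSupp X Y (F.E i z) := fun x y h => F.support i z x y h

theorem SlotFamily.piece_supp (F : SlotFamily X Y) (i : Fin F.n) (v : Matrix BPt BPt ℂ) :
    LabSupp X Y (F.piece i v) :=
  (F.E_supp i _).sandwich (stageProd_cls (F.pre_cls i)) (stageProd_cls (F.post_cls i))

theorem SlotFamily.good (F : SlotFamily X Y) :
    ∀ (is : List (Fin F.n)), ∀ s ∈ is.flatMap F.chunk, GoodStage s := by
  intro is s hs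
  obtain ⟨i, -, hs⟩ := List.mem_flatMap.1 hs
  rcases List.mem_append.1 hs with hs | hs
  · exact (F.preCls i s hs).spec.1
  · rcases List.mem_cons.1 hs with rfl | hs
    · refine ⟨F.slotOK i, ⟨id, ?_⟩, ‖LinearMap.toContinuousLinearMap (F.E i)‖, norm_nonneg _,
        fun z => ?_⟩
      · rw [F.slotMat_zero]; exact isMono_one
      · rw [F.slotMat]
        refine (norm_add_le _ _).trans (add_le_add (norm_le_one_of_unitary (by simp)) ?_)
        exact (LinearMap.toContinuousLinearMap (F.E i)).le_opNorm z
    · exact (F.postCls i s hs).spec.1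

theorem SlotFamily.stageProd_body (F : SlotFamily X Y) (is : List (Fin F.n)) :
    stageProd (is.flatMap F.chunk) = 1 := by
  induction is with
  | nil => rfl
  | cons i is ih =>
    rw [List.flatMap_cons, stageProd_append, ih, mul_one, SlotFamily.chunk, stageProd_append,
      stageProd_cons, F.slotMat_zero, one_mul, F.inv]

/-- One conjugated slot. -/
theorem SlotFamily.run_chunk (F : SlotFamily X Y) (i : Fin F.n) (off : ℕ) (a : ℕ → Lbl → ℝ)
    (z : ℕ → ℂ) :
    run (F.chunk i) off a z =
      (1 + Real.exp (segSum a off (off + (F.pre i).length + 1) Y.lbl -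
          segSum a off (off + (F.pre i).length + 1) X.lbl) •
        (stageProd (F.pre i) * F.E i (z (off + (F.pre i).length)) * stageProd (F.post i))) *
      clsDiag (onLbl (segSum a off (off + (F.chunk i).length))) := by
  set k := off + (F.pre i).length with hk
  set P := stageProd (F.pre i)
  set Q := stageProd (F.post i)
  have hP : IsMono P id := stageProd_cls (F.pre_cls i)
  have hQ : IsMono Q id := stageProd_cls (F.post_cls i)
  have hlen : off + (F.chunk i).length = k + 1 + (F.post i).length := by
    simp only [SlotFamily.chunk, List.length_append, List.length_cons]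
    omega
  simp only [SlotFamily.chunk] at hlen
  rw [SlotFamily.chunk, run_append, run, run_cls (F.pre_cls i), run_cls (F.post_cls i),
    F.slotMat, labDiag_eq]
  set D1 := clsDiag (onLbl (segSum a off k))
  set D2 := clsDiag (onLbl (segSum a (k + 1) (k + 1 + (F.post i).length)))
  set H := onLbl (segSum a off (k + 1))
  have e1 : D1 * clsDiag (onLbl (a k)) = clsDiag H := by
    rw [clsDiag_mul, ← segSum_succ a k, onLbl_segSum_add a (by omega) (by omega)]
  have e2 : P * (1 + F.E i (z k)) * Q = 1 + P * F.E i (z k) * Q := by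
    rw [mul_add, add_mul, mul_one, F.inv]
  have hc := clsDiag_mul_one_add_lbl (segSum a off (k + 1))
    ((F.E_supp i (z k)).sandwich hP hQ)
  calc D1 * P * (clsDiag (onLbl (a k)) * (1 + F.E i (z k)) * (D2 * Q))
      = D1 * (P * clsDiag (onLbl (a k))) * (1 + F.E i (z k)) * (D2 * Q) := by
        simp only [mul_assoc]
    _ = D1 * clsDiag (onLbl (a k)) * (P * (1 + F.E i (z k))) * (D2 * Q) := by
        rw [← clsDiag_commute hP]; simp only [mul_assoc]
    _ = clsDiag H * (P * (1 + F.E i (z k)) * Q) * D2 := by
        rw [e1, clsDiag_commute hQ]; simp only [mul_assoc]; rfl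
    _ = _ := by
        rw [e2, hc, mul_assoc _ (clsDiag (onLbl (segSum a off (k + 1)))), clsDiag_mul,
          onLbl_segSum_add a (by omega) (by omega), ← hlen]

/-- All conjugated slots of a family: with suitable slot values the corrections add up. -/
theorem SlotFamily.run_body (F : SlotFamily X Y) (hne : X.lbl ≠ Y.lbl) (is : List (Fin F.n))
    (off : ℕ) : ∃ L : ℕ → Matrix BPt BPt ℂ →ₗ[ℝ] ℂ, ∀ (a : ℕ → Lbl → ℝ) (c : ℝ)
      (v : Matrix BPt BPt ℂ) (z : ℕ → ℂ),
      (∀ k, off ≤ k → k < off + (is.flatMap F.chunk).length →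
        z k = (c * Real.exp (segSum a off (k + 1) X.lbl - segSum a off (k + 1) Y.lbl)) • L k v) →
      run (is.flatMap F.chunk) off a z = (1 + c • (is.map fun i => F.piece i v).sum) *
        clsDiag (onLbl (segSum a off (off + (is.flatMap F.chunk).length))) := by
  induction is generalizing off with
  | nil =>
    refine ⟨0, fun a c v z _ => ?_⟩
    have e : onLbl (segSum a off (off + (([] : List (Fin F.n)).flatMap F.chunk).length)) = 0 := by
      funext u
      simp [segSum]
    rw [e, clsDiag_zero]
    simp [run]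
  | cons i is ih =>
    set m := off + (F.chunk i).length with hm
    obtain ⟨L, hL⟩ := ih m
    refine ⟨fun k => if k < m then F.lam i else L k, fun a c v z hz => ?_⟩
    have hlen : off + ((i :: is).flatMap F.chunk).length = m + (is.flatMap F.chunk).length := by
      rw [List.flatMap_cons, List.length_append]; omega
    rw [hlen] at hz ⊢
    dsimp only at hz
    set fh : Lbl → ℝ := segSum a off m with hfh
    set c' := c * Real.exp (fh X.lbl - fh Y.lbl) with hc'
    have hrest := hL a c' v z fun k h1 h2 => by
      rw [hz k (by omega) h2, if_neg (by omega), hc', mul_assoc, ← Real.exp_add]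
      congr 3
      rw [hfh, show segSum a off (k + 1) X.lbl = segSum a off m X.lbl + segSum a m (k + 1) X.lbl from
          (Finset.sum_Ico_consecutive _ (by omega) (by omega)).symm,
        show segSum a off (k + 1) Y.lbl = segSum a off m Y.lbl + segSum a m (k + 1) Y.lbl from
          (Finset.sum_Ico_consecutive _ (by omega) (by omega)).symm]
      ring
    have hk1 : off + (F.pre i).length < m := by
      simp only [hm, SlotFamily.chunk, List.length_append, List.length_cons]; omega
    have hfirst : run (F.chunk i) off a z = (1 + c • F.piece i v) * clsDiag (onLbl fh) := by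
      rw [F.run_chunk, hz _ (by omega) (by omega), if_pos hk1, map_smul, Matrix.mul_smul,
        Matrix.smul_mul, smul_smul]
      congr 3
      rw [mul_left_comm, ← Real.exp_add]
      simp
    have hsupp : LabSupp X Y (c' • (is.map fun i => F.piece i v).sum) := by
      intro x y h
      refine LabSupp.sum is (fun j _ => F.piece_supp j v) x y fun e => h ?_
      rw [Matrix.smul_apply, e, smul_zero]
    rw [List.flatMap_cons, run_append, hfirst, hrest, List.map_cons, List.sum_cons]
    set S := (is.map fun i => F.piece i v).sum with hS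
    have hZS : F.piece i v * S = 0 :=
      LabSupp.mul_zero hne (F.piece_supp i v) (LabSupp.sum is fun j _ => F.piece_supp j v)
    rw [← mul_assoc, mul_assoc (1 + c • F.piece i v), clsDiag_mul_one_add_lbl fh hsupp, smul_smul,
      hc', mul_left_comm, ← Real.exp_add, show fh Y.lbl - fh X.lbl + (fh X.lbl - fh Y.lbl) = 0 by ring,
      Real.exp_zero, mul_one, ← mul_assoc, mul_assoc, clsDiag_mul,
      onLbl_segSum_add a (show off ≤ m by omega) (Nat.le_add_right _ _)]
    refine congrArg (· * clsDiag _) ?_
    rw [add_mul, one_mul, mul_add, mul_one, Matrix.mul_smul, Matrix.smul_mul, hZS, smul_zero,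
      smul_zero, add_zero, smul_add]
    abel

end Vale.Agent.P225
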