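import Vale.Agent.P225.Plan.Spec

/-!
P225, module D: coordinates of band points and matrices that move basis vectors to multiples of
basis vectors.
-/

noncomputable section

namespace Vale.Agent.P225

open Matrix SU2
open scoped ComplexOrder Matrix.Norms.L2Operator

attribute [local irreducible] band

/-- Labels and indices as numbers. -/
abbrev Crd := Lbl × (Fin 3 → ℕ)

/-- The moving label and its index. -/
abbrev Key := ℕ × ℕ

/-- The coordinates of a point. -/
def crd (x : Pnt) : Crd := (lab x, fun k => idx x k)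

/-- The coordinates of a band point. -/
def bcrd (x : BPt) : Crd := crd x.1.out

/-- The coordinate of a gauge. -/
def crdKey (G : Fin 3) (c : Crd) : Key := (c.1 G, c.2 G)

/-- The coordinates occurring on the band. -/
def Crd.Valid (c : Crd) : Prop := c.1 ∈ band ∧ ∀ k, c.2 k ≤ c.1 k

theorem crd_injective : Function.Injective crd := by
  rintro ⟨⟨t, ht⟩, m⟩ ⟨⟨u, hu⟩, n⟩ h
  obtain rfl : t = u := congrArg Prod.fst h
  have h2 := congrArg Prod.snd h
  obtain rfl : m = n := funext fun k => Fin.ext (congrFun h2 k)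
  rfl

theorem bcrd_injective : Function.Injective bcrd := fun _ _ h =>
  Subtype.ext (PntK.out_injective (crd_injective h))

theorem band_le_twenty {t : Lbl} (ht : t ∈ band) (k : Fin 3) : t k < 21 := by
  unfold band at ht
  simp only [Finset.mem_filter, Fintype.mem_piFinset, Finset.mem_range] at ht
  have := ht.1 k
  omega

theorem band_ok {t : Lbl} (ht : t ∈ band) : LblOK t := by
  unfold band at ht
  exact (Finset.mem_filter.1 ht).2.1

theorem bcrd_valid (x : BPt) : (bcrd x).Valid :=
  ⟨x.2, fun k => Nat.lt_succ_iff.1 (x.1.2 k).2⟩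

theorem exists_bcrd {c : Crd} (h : c.Valid) : ∃ x : BPt, bcrd x = c :=
  ⟨⟨⟨⟨fun k => ⟨c.1 k, band_le_twenty h.1 k⟩, band_ok h.1⟩,
    fun k => ⟨c.2 k, Nat.lt_succ_iff.2 (h.2 k)⟩⟩, h.1⟩, rfl⟩

/-- The class of coordinates: forget which member of a pair. -/
def cls (c : Crd) : Crd := (c.1, fun k => unsIdx (c.1 k) (c.2 k))

theorem cls_bcrd (x : BPt) : cls (bcrd x) = ((uOf x).lbl, (uOf x).idx) := rfl

theorem uOf_eq_iff {x y : BPt} : uOf x = uOf y ↔ cls (bcrd x) = cls (bcrd y) := by
  constructor
  · intro h; rw [cls_bcrd, cls_bcrd, h]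
  · intro h
    rw [cls_bcrd, cls_bcrd] at h
    exact UPoint.ext (congrArg Prod.fst h) (congrArg Prod.snd h)

theorem uOf_eq {x : BPt} {P : UPoint} (h : cls (bcrd x) = (P.lbl, P.idx)) : uOf x = P := by
  rw [cls_bcrd] at h
  exact UPoint.ext (congrArg Prod.fst h) (congrArg Prod.snd h)

theorem unsIdx_self {a i : ℕ} (h : i < umult a) : unsIdx a i = i := by
  unfold umult at h
  unfold unsIdx
  split_ifs at h ⊢ <;> omega

theorem lt_umult_le {a i : ℕ} (h : i < umult a) : i ≤ a := by
  unfold umult at h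
  split_ifs at h <;> omega

/-- The partner of a key in its pair. -/
def flKey (k : Key) : Key := (k.1, if k.1 % 2 = 1 then k.1 - k.2 else k.2)

theorem flKey_le {k : Key} (h : k.2 ≤ k.1) : (flKey k).2 ≤ (flKey k).1 := by
  unfold flKey
  simp only
  split_ifs <;> omega

theorem flKey_flKey {k : Key} (h : k.2 ≤ k.1) : flKey (flKey k) = k := by
  unfold flKey
  refine Prod.ext rfl ?_
  simp only
  split_ifs <;> omega

theorem unsIdx_flKey {k : Key} (h : k.2 ≤ k.1) : unsIdx k.1 (flKey k).2 = unsIdx k.1 k.2 := by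
  unfold unsIdx flKey
  simp only
  split_ifs <;> omega

theorem key_cases {a i j : ℕ} (hi : i ≤ a) (hj : j ≤ a) (h : unsIdx a i = unsIdx a j) :
    (a, i) = (a, j) ∨ (a, i) = flKey (a, j) := by
  unfold unsIdx at h
  unfold flKey
  simp only [Prod.mk.injEq, true_and]
  split_ifs at h ⊢ <;> omega

/-- A map of the moving coordinate applied inside one block. -/
def act (G : Fin 3) (p : ℕ × ℕ) (g : Key → Key) (c : Crd) : Crd :=
  if (c.1 (G + 1), c.1 (G + 2)) = p then
    (Function.update c.1 G (g (crdKey G c)).1, Function.update c.2 G (g (crdKey G c)).2)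
  else c

/-- The factor picked up inside one block. -/
def actCoef (G : Fin 3) (p : ℕ × ℕ) (c : Key → ℂ) (x : Crd) : ℂ :=
  if (x.1 (G + 1), x.1 (G + 2)) = p then c (crdKey G x) else 1

theorem act_other (G : Fin 3) (p : ℕ × ℕ) (g : Key → Key) (c : Crd) {k : Fin 3} (hk : k ≠ G) :
    (act G p g c).1 k = c.1 k ∧ (act G p g c).2 k = c.2 k := by
  unfold act
  split_ifs <;> simp [hk]

theorem fin3_succ_ne (G : Fin 3) : G + 1 ≠ G ∧ G + 2 ≠ G := by
  fin_cases G <;> decide

theorem fin3_trichotomy (G k : Fin 3) : k = G ∨ k = G + 1 ∨ k = G + 2 := by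
  fin_cases G <;> fin_cases k <;> decide

theorem crd_ext {G : Fin 3} {c d : Crd} (hk : crdKey G c = crdKey G d)
    (ho : ∀ k, k ≠ G → c.1 k = d.1 k ∧ c.2 k = d.2 k) : c = d := by
  refine Prod.ext (funext fun k => ?_) (funext fun k => ?_)
  · by_cases h : k = G
    · rw [h]; exact congrArg Prod.fst hk
    · exact (ho k h).1
  · by_cases h : k = G
    · rw [h]; exact congrArg Prod.snd hk
    · exact (ho k h).2

/-- A matrix moving the vector of `y` to a multiple of the vector at `f y`. -/
def monoBand (f : Crd → Crd) (c : Crd → ℂ) : Matrix BPt BPt ℂ :=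
  fun x y => if bcrd x = f (bcrd y) then c (bcrd y) else 0

theorem mul_monoBand {f : Crd → Crd} {c : Crd → ℂ} (A : Matrix BPt BPt ℂ) (x y y' : BPt)
    (h : bcrd y' = f (bcrd y)) : (A * monoBand f c) x y = A x y' * c (bcrd y) := by
  rw [Matrix.mul_apply, Finset.sum_eq_single y' ?_ (by simp)]
  · simp [monoBand, h]
  · intro z _ hz
    have : bcrd z ≠ f (bcrd y) := fun e => hz (bcrd_injective (e.trans h.symm))
    simp [monoBand, this]

theorem conjTranspose_monoBand_mul {f : Crd → Crd} {c : Crd → ℂ} (A : Matrix BPt BPt ℂ)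
    (x x' y : BPt) (h : bcrd x' = f (bcrd x)) :
    ((monoBand f c)ᴴ * A) x y = star (c (bcrd x)) * A x' y := by
  rw [Matrix.mul_apply, Finset.sum_eq_single x' ?_ (by simp)]
  · simp [monoBand, h, Matrix.conjTranspose_apply]
  · intro z _ hz
    have : bcrd z ≠ f (bcrd x) := fun e => hz (bcrd_injective (e.trans h.symm))
    simp [monoBand, this, Matrix.conjTranspose_apply]

/-- The hypotheses making a monomial matrix unitary. -/
structure IsBandPerm (f : Crd → Crd) (c : Crd → ℂ) : Prop where
  valid : ∀ z : Crd, z.Valid → (f z).Valid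
  inj : ∀ z w : Crd, z.Valid → w.Valid → f z = f w → z = w
  unit : ∀ z : Crd, z.Valid → star (c z) * c z = 1

theorem monoBand_unitary {f : Crd → Crd} {c : Crd → ℂ} (h : IsBandPerm f c) :
    (monoBand f c)ᴴ * monoBand f c = 1 := by
  ext x y
  obtain ⟨x', hx'⟩ := exists_bcrd (h.valid _ (bcrd_valid x))
  rw [conjTranspose_monoBand_mul _ x x' y hx', Matrix.one_apply]
  by_cases hxy : x = y
  · subst hxy
    simp only [monoBand, hx', if_true]
    exact h.unit _ (bcrd_valid x)
  · have : bcrd x' ≠ f (bcrd y) := by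
      rw [hx']
      exact fun e => hxy (bcrd_injective (h.inj _ _ (bcrd_valid x) (bcrd_valid y) e))
    simp [monoBand, this, hxy]

theorem monoBand_id : monoBand id (fun _ => 1) = 1 := by
  ext x y
  simp [monoBand, Matrix.one_apply, bcrd_injective.eq_iff]

/-- Composition on the right. -/
theorem monoBand_mul {f f' : Crd → Crd} {c c' : Crd → ℂ} (hf : IsBandPerm f c) :
    monoBand f' c' * monoBand f c = monoBand (f' ∘ f) (fun z => c' (f z) * c z) := by
  ext x y
  obtain ⟨y', hy'⟩ := exists_bcrd (hf.valid _ (bcrd_valid y))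
  rw [mul_monoBand _ x y y' hy']
  simp only [monoBand, hy', Function.comp_apply]
  split_ifs <;> simp

end Vale.Agent.P225
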