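import Vale.Agent.P225.Plan.Coord
import Vale.Agent.P225.Stage.TessPoint

/-!
P225, module D: band entries of gauge operators in the adapted basis.
-/

noncomputable section

namespace Vale.Agent.P225

open Matrix SU2 NormedSpace
open scoped ComplexOrder Matrix.Norms.L2Operator

attribute [local irreducible] band

/-- The key of a basis label. -/
def bkey {p : ℕ × ℕ} (w : BlkIdx p) : Key := ((w.1.1 : ℕ), (w.2 : ℕ))

theorem bkey_injective {p : ℕ × ℕ} : Function.Injective (bkey (p := p)) := by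
  rintro ⟨⟨v, hv⟩, i⟩ ⟨⟨u, hu⟩, j⟩ h
  obtain rfl : v = u := Fin.ext (congrArg Prod.fst h)
  obtain rfl : i = j := Fin.ext (congrArg Prod.snd h)
  rfl

theorem bkey_blkCast {p q : ℕ × ℕ} (h : p = q) (x : BlkIdx p) : bkey (blkCast h x) = bkey x := by
  subst h; rfl

theorem bkey_ptBlk (G : Fin 3) (x : Pnt) : bkey (ptBlk G x) = crdKey G (crd x) := rfl

/-- The entry of a gauge operator in the adapted basis. -/
def tessEntry (G : Fin 3) (F : ∀ p, BlkMat p) (x y : Pnt) : ℂ :=
  if h : SameBlk G x y then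
    star (blkVec (blkLab G x) (ptBlk G x)) ⬝ᵥ
      (F (blkLab G x) *ᵥ blkVec (blkLab G x) (blkCast (Prod.ext h.1.symm h.2.1.symm) (ptBlk G y)))
  else 0

theorem tessMat_zero {K : ℕ} {x y : PntK K} (h : x.1 ≠ y.1) : tessMat K x y = 0 := dif_neg h

/-- Restricting a congruence by a matrix preserving a subset. -/
theorem sub_conj {n : Type*} [Fintype n] (P : n → Prop) [DecidablePred P] (T A : Matrix n n ℂ)
    (hT : ∀ (z : n) (w : {x // P x}), ¬P z → T z w = 0) (x y : {x // P x}) :
    ((Matrix.of fun i j : {x // P x} => T i j)ᴴ * (Matrix.of fun i j : {x // P x} => A i j) *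
      Matrix.of fun i j : {x // P x} => T i j) x y = (Tᴴ * A * T) x y := by
  have hs : ∀ f : n → ℂ, (∀ z, ¬P z → f z = 0) → ∑ b : {x // P x}, f b = ∑ z, f z := fun f hf => by
    rw [← Finset.sum_subtype (Finset.univ.filter P) (by simp) f]
    exact Finset.sum_filter_of_ne fun z _ hzf => not_not.1 fun e => hzf (hf z e)
  simp only [Matrix.mul_apply, Matrix.conjTranspose_apply, Matrix.of_apply]
  rw [← hs (fun j => (∑ i, star (T i x) * A i j) * T j y) (fun b hb => by simp [hT b y hb])]
  refine Finset.sum_congr rfl fun b _ => ?_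
  rw [← hs (fun i => star (T i x) * A i b) fun a ha => by simp [hT a x ha]]

theorem adaptBasis_eq : adaptBasis = Matrix.of fun i j : BPt => tessMat 20 i.1 j.1 := rfl

theorem bandOf_eq (G : Fin 3) (F : ∀ p, BlkMat p) (x y : BPt) :
    bandOf G F x y = tessEntry G F x.1.out y.1.out := by
  have hz : ∀ (z : PntK 20) (w : BPt), lab z.out ∉ band → tessMat 20 z w.1 = 0 := by
    intro z w hzb
    refine tessMat_zero fun e => hzb ?_
    have : lab z.out = lab w.1.out := funext fun k => congrArg (fun t => (t.1 k : ℕ)) e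
    rw [this]
    exact w.2
  have h1 := sub_conj (fun z : PntK 20 => lab z.out ∈ band) (tessMat 20) (gaugeMat 20 G F) hz x y
  rw [gaugeMat_tess] at h1
  rw [bandOf, adaptBasis_eq]
  exact h1

/-- If the adapted entries between two triples vanish, so do the point entries. -/
theorem gaugeEntry_eq_zero (G : Fin 3) (F : ∀ p, BlkMat p) (x y : Pnt)
    (h : ∀ x' y' : Pnt, lab x' = lab x → lab y' = lab y → tessEntry G F x' y' = 0) :
    gaugeEntry G F x y = 0 := by
  obtain ⟨K, hx, hy⟩ : ∃ K, (∀ k, lab x k < K + 1) ∧ ∀ k, lab y k < K + 1 :=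
    ⟨∑ k, (lab x k + lab y k), fun k => Nat.lt_succ_of_le
      ((Nat.le_add_right _ _).trans (Finset.single_le_sum (f := fun k => lab x k + lab y k)
        (fun _ _ => Nat.zero_le _) (Finset.mem_univ k))), fun k => Nat.lt_succ_of_le
      ((Nat.le_add_left _ _).trans (Finset.single_le_sum (f := fun k => lab x k + lab y k)
        (fun _ _ => Nat.zero_le _) (Finset.mem_univ k)))⟩
  obtain ⟨a, rfl⟩ : ∃ a : PntK K, a.out = x :=
    ⟨⟨⟨fun k => ⟨lab x k, hx k⟩, x.1.2⟩, x.2⟩, rfl⟩
  obtain ⟨b, rfl⟩ : ∃ b : PntK K, b.out = y :=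
    ⟨⟨⟨fun k => ⟨lab y k, hy k⟩, y.1.2⟩, y.2⟩, rfl⟩
  set T := tessMat K
  have hT : T * Tᴴ = 1 := tessMat_unitary.2
  have e : gaugeMat K G F = T * (Tᴴ * gaugeMat K G F * T) * Tᴴ := by
    simp only [← mul_assoc, hT, one_mul]
    rw [mul_assoc (gaugeMat K G F), hT, mul_one]
  show gaugeMat K G F a b = 0
  rw [e, Matrix.mul_apply]
  refine Finset.sum_eq_zero fun w _ => ?_
  by_cases hw : b.1 = w.1
  · rw [Matrix.mul_apply, Finset.sum_mul]
    refine Finset.sum_eq_zero fun u _ => ?_
    by_cases hu : a.1 = u.1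
    · rw [gaugeMat_tess]
      have := h u.out w.out (funext fun k => congrArg (fun t => (t.1 k : ℕ)) hu.symm)
        (funext fun k => congrArg (fun t => (t.1 k : ℕ)) hw.symm)
      rw [tessEntry] at this
      rw [this, mul_zero, zero_mul]
    · simp only [T, tessMat_zero hu, zero_mul]
  · simp only [T, Matrix.conjTranspose_apply, tessMat_zero hw, star_zero, mul_zero]

/-- A block algebra element moving the vectors of one block to multiples of vectors, and equal to
the identity elsewhere. -/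
structure BlkSpec {β : Finset (ℕ × ℕ)} (p : β) (M : BlkAlg β) (g : Key → Key) (c : Key → ℂ) :
    Prop where
  off : ∀ q, q ≠ p → M q = 1
  on : ∀ w : BlkIdx p.1, ∃ w', bkey w' = g (bkey w) ∧
    M p *ᵥ blkVec p.1 w = c (bkey w) • blkVec p.1 w'

theorem sameBlk_of_act {G : Fin 3} {p : ℕ × ℕ} {g : Key → Key} {x y : Pnt}
    (h : crd x = act G p g (crd y)) : SameBlk G x y := by
  obtain ⟨h1, h2⟩ := fin3_succ_ne G
  have a := act_other G p g (crd y) h1
  have b := act_other G p g (crd y) h2
  rw [← h] at a b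
  exact ⟨a.1, b.1, a.2, b.2⟩

theorem crd_eq_of_sameBlk {G : Fin 3} {x y : Pnt} (h : SameBlk G x y)
    (hk : crdKey G (crd x) = crdKey G (crd y)) : crd x = crd y :=
  crd_ext hk fun k hk' => by
    rcases fin3_trichotomy G k with rfl | rfl | rfl
    · exact absurd rfl hk'
    · exact ⟨h.1, h.2.2.1⟩
    · exact ⟨h.2.1, h.2.2.2⟩

theorem extBlk_mul_vec_off {β : Finset (ℕ × ℕ)} {p : β} {M : BlkAlg β}
    (hoff : ∀ q, q ≠ p → M q = 1) {q : ℕ × ℕ} (hq : q ≠ p.1) : extBlk M q = 1 := by
  unfold extBlk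
  split_ifs with h
  · exact hoff _ fun e => hq (congrArg Subtype.val e)
  · rfl

theorem tessEntry_one_apply {G : Fin 3} {F : ∀ p, BlkMat p} {x y : Pnt} (h : SameBlk G x y)
    (hF : F (blkLab G x) = 1) : tessEntry G F x y = if crd x = crd y then 1 else 0 := by
  rw [tessEntry, dif_pos h, hF, Matrix.one_mulVec, blkVec_orthonormal]
  refine if_congr ⟨fun e => crd_eq_of_sameBlk h ?_, fun e => bkey_injective ?_⟩ rfl rfl
  · have := congrArg bkey e
    rwa [bkey_blkCast, bkey_ptBlk, bkey_ptBlk] at this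
  · rw [bkey_blkCast, bkey_ptBlk, bkey_ptBlk, e]

/-- The entries of a monomial block element. -/
theorem tessEntry_mono {G : Fin 3} {β : Finset (ℕ × ℕ)} {p : β} {M : BlkAlg β} {g : Key → Key}
    {c : Key → ℂ} (hM : BlkSpec p M g c) (x y : Pnt) :
    tessEntry G (extBlk M) x y =
      if crd x = act G p.1 g (crd y) then actCoef G p.1 c (crd y) else 0 := by
  by_cases h : SameBlk G x y
  · have hlab : blkLab G x = ((crd y).1 (G + 1), (crd y).1 (G + 2)) := Prod.ext h.1 h.2.1
    by_cases hp : blkLab G x = p.1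
    · have hp' : ((crd y).1 (G + 1), (crd y).1 (G + 2)) = p.1 := hlab.symm.trans hp
      have key : ∀ (q : ℕ × ℕ) (hq : q = p.1) (a b : BlkIdx q),
          star (blkVec q a) ⬝ᵥ (extBlk M q *ᵥ blkVec q b) =
            if bkey a = g (bkey b) then c (bkey b) else 0 := by
        rintro q rfl a b
        obtain ⟨w', hw', he⟩ := hM.on b
        have : extBlk M p.1 = M p := by simp [extBlk]
        rw [this, he, dotProduct_smul, blkVec_orthonormal, smul_eq_mul, ← hw']
        simp [bkey_injective.eq_iff]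
      rw [tessEntry, dif_pos h, key _ hp, bkey_blkCast, bkey_ptBlk, bkey_ptBlk, actCoef,
        if_pos hp']
      refine if_congr ⟨fun e => ?_, fun e => ?_⟩ rfl rfl
      · refine crd_ext (G := G) ?_ fun k hk => ?_
        · rw [act, if_pos hp', e]; simp [crdKey]
        · obtain ⟨e1, e2⟩ := act_other G p.1 g (crd y) hk
          rw [e1, e2]
          rcases fin3_trichotomy G k with rfl | rfl | rfl
          · exact absurd rfl hk
          · exact ⟨h.1, h.2.2.1⟩
          · exact ⟨h.2.1, h.2.2.2⟩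
      · rw [e, act, if_pos hp']; simp [crdKey]
    · have hp' : ¬((crd y).1 (G + 1), (crd y).1 (G + 2)) = p.1 := hlab ▸ hp
      rw [tessEntry_one_apply h (extBlk_mul_vec_off hM.off hp), act, actCoef, if_neg hp', if_neg hp']
  · rw [tessEntry, dif_neg h, if_neg fun e => h (sameBlk_of_act e)]

/-- The entries of the identity plus a matrix in one block. -/
theorem tessEntry_add_blk {G : Fin 3} {β : Finset (ℕ × ℕ)} {p : β} {M : BlkAlg β} {A : BlkMat p.1}
    (hM : M = 1 + inBlk p A) {h : Key → Key → ℂ}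
    (hA : ∀ a b : BlkIdx p.1, star (blkVec p.1 a) ⬝ᵥ (A *ᵥ blkVec p.1 b) = h (bkey a) (bkey b))
    (x y : Pnt) :
    tessEntry G (extBlk M) x y = (if crd x = crd y then 1 else 0) +
      if SameBlk G x y ∧ blkLab G x = p.1 then h (crdKey G (crd x)) (crdKey G (crd y)) else 0 := by
  by_cases hs : SameBlk G x y
  · by_cases hp : blkLab G x = p.1
    · have key : ∀ (q : ℕ × ℕ) (hq : q = p.1) (a b : BlkIdx q),
          star (blkVec q a) ⬝ᵥ (extBlk M q *ᵥ blkVec q b) =
            (if a = b then 1 else 0) + h (bkey a) (bkey b) := by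
        rintro q rfl a b
        have : extBlk M p.1 = 1 + A := by simp [extBlk, hM, inBlk]
        rw [this, Matrix.add_mulVec, Matrix.one_mulVec, dotProduct_add, blkVec_orthonormal, hA]
      rw [tessEntry, dif_pos hs, key _ hp, bkey_blkCast, bkey_ptBlk, bkey_ptBlk, if_pos (show SameBlk G x y ∧ blkLab G x = p.1 from ⟨hs, hp⟩)]
      refine congrArg₂ (· + ·) (if_congr ⟨fun e => crd_eq_of_sameBlk hs ?_,
        fun e => bkey_injective ?_⟩ rfl rfl) rfl
      · have := congrArg bkey e
        rwa [bkey_blkCast, bkey_ptBlk, bkey_ptBlk] at this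
      · rw [bkey_blkCast, bkey_ptBlk, bkey_ptBlk, e]
    · rw [tessEntry_one_apply hs (extBlk_mul_vec_off (p := p) (fun q hq => by
        simp [hM, inBlk, Pi.single_eq_of_ne hq]) hp),
        if_neg (fun e : SameBlk G x y ∧ blkLab G x = p.1 => hp e.2), add_zero]
  · rw [tessEntry, dif_neg hs]
    have : crd x ≠ crd y := fun e => hs (crd_injective e ▸ ⟨rfl, rfl, rfl, rfl⟩)
    simp [this, hs]

end Vale.Agent.P225
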