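import Vale.Agent.P225.Plan.Real

/-!
P225, module D: products along a list of stages with diagonals in between.
-/

noncomputable section

namespace Vale.Agent.P225

open Matrix SU2 NormedSpace
open scoped ComplexOrder Matrix.Norms.L2Operator

attribute [local irreducible] band

/-- A diagonal depending on the classes only. -/
def clsDiag (h : UPoint → ℝ) : Matrix BPt BPt ℂ :=
  diagonal fun x => ((Real.exp (-h (uOf x)) : ℝ) : ℂ)

/-- The function of the class given by a function of the label. -/
abbrev onLbl (f : Lbl → ℝ) : UPoint → ℝ := fun u => f u.lbl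

theorem labDiag_eq (a : Lbl → ℝ) : labDiag a = clsDiag (onLbl a) := rfl

theorem clsDiag_mul (g h : UPoint → ℝ) : clsDiag g * clsDiag h = clsDiag (g + h) := by
  rw [clsDiag, clsDiag, clsDiag, diagonal_mul_diagonal]
  refine congrArg diagonal (funext fun x => ?_)
  rw [Pi.add_apply, neg_add, Real.exp_add, Complex.ofReal_mul]

theorem clsDiag_zero : clsDiag 0 = 1 := by
  simp [clsDiag]

theorem IsMono.mul {A B : Matrix BPt BPt ℂ} {σ τ : UPoint → UPoint} (hA : IsMono A σ)
    (hB : IsMono B τ) : IsMono (A * B) (σ ∘ τ) := by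
  refine ⟨?_, fun x y h => ?_⟩
  · rw [conjTranspose_mul, mul_assoc, ← mul_assoc Aᴴ, hA.1, one_mul, hB.1]
  · rw [Matrix.mul_apply]
    refine Finset.sum_eq_zero fun z _ => ?_
    by_cases hz : uOf z = τ (uOf y)
    · rw [hA.2 x z (by rw [hz]; exact h), zero_mul]
    · rw [hB.2 z y hz, mul_zero]

theorem isMono_one : IsMono 1 id := by
  refine ⟨by simp, fun x y h => Matrix.one_apply_ne fun e => h ?_⟩
  rw [e]; rfl

/-- Diagonals pass through monomial matrices. -/
theorem clsDiag_mul_mono {T : Matrix BPt BPt ℂ} {σ : UPoint → UPoint} (hT : IsMono T σ)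
    (h : UPoint → ℝ) : clsDiag h * T = T * clsDiag (h ∘ σ) := by
  ext x y
  rw [clsDiag, clsDiag, diagonal_mul, mul_diagonal, Function.comp_apply]
  by_cases hxy : uOf x = σ (uOf y)
  · rw [hxy, mul_comm]
  · rw [hT.2 x y hxy, mul_zero, zero_mul]

theorem clsDiag_commute {T : Matrix BPt BPt ℂ} (hT : IsMono T id) (h : UPoint → ℝ) :
    clsDiag h * T = T * clsDiag h := clsDiag_mul_mono hT h

/-- The band map of stages between diagonals, the first one at position `off`. -/
def run : List StageSpec → ℕ → (ℕ → Lbl → ℝ) → (ℕ → ℂ) → Matrix BPt BPt ℂ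
  | [], _, _, _ => 1
  | s :: l, off, a, z => labDiag (a off) * s.bandMat (z off) * run l (off + 1) a z

theorem run_append (l₁ l₂ : List StageSpec) (off : ℕ) (a : ℕ → Lbl → ℝ) (z : ℕ → ℂ) :
    run (l₁ ++ l₂) off a z = run l₁ off a z * run l₂ (off + l₁.length) a z := by
  induction l₁ generalizing off with
  | nil => simp [run]
  | cons s l ih =>
    rw [List.cons_append, run, run, ih, mul_assoc (labDiag (a off) * s.bandMat (z off)),
      List.length_cons, show off + (l.length + 1) = off + 1 + l.length by omega]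

theorem run_congr (l : List StageSpec) (off : ℕ) (a : ℕ → Lbl → ℝ) {z z' : ℕ → ℂ}
    (h : ∀ k, off ≤ k → k < off + l.length → z k = z' k) : run l off a z = run l off a z' := by
  induction l generalizing off with
  | nil => rfl
  | cons s l ih =>
    rw [run, run, h off le_rfl (by simp),
      ih _ fun k h1 h2 => h k (by omega) (by simp only [List.length_cons]; omega)]

theorem run_fixed {l : List StageSpec} (hl : ∀ s ∈ l, ∀ z, s.bandMat z = s.bandMat 0) (off : ℕ)
    (a : ℕ → Lbl → ℝ) (z : ℕ → ℂ) : run l off a z = run l off a 0 := by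
  induction l generalizing off with
  | nil => rfl
  | cons s l ih =>
    rw [run, run, hl s (List.mem_cons_self ..) (z off),
      ih (fun t ht => hl t (List.mem_cons_of_mem _ ht))]
    rfl

theorem clusterProd_eq (l : List StageSpec) (a : ℕ → Lbl → ℝ) (z : ℕ → ℂ) :
    clusterProd l a z = run l 0 a z * labDiag (a l.length) := by
  have key : ∀ (l : List StageSpec) (off : ℕ),
      ((List.range l.length).map fun k =>
        labDiag (a (off + k)) * ((l[k]?).map fun s => s.bandMat (z (off + k))).getD 1).prod =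
      run l off a z := by
    intro l
    induction l with
    | nil => intro off; simp [run]
    | cons s l ih =>
      intro off
      rw [List.length_cons, List.range_succ_eq_map, List.map_cons, List.prod_cons, List.map_map,
        run, ← ih]
      simp [Function.comp_def, Nat.add_assoc, Nat.add_comm 1]
  rw [clusterProd, ← key l 0]
  simp

theorem stageProd_nil : stageProd [] = 1 := rfl

theorem stageProd_cons (s : StageSpec) (l : List StageSpec) :
    stageProd (s :: l) = s.bandMat 0 * stageProd l := rfl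

/-- Stages that are monomial without slot values compose to a monomial matrix and move all
diagonals to the end. -/
theorem exists_zero_run (l : List StageSpec) (hl : ∀ s ∈ l, ∃ σ, IsMono (s.bandMat 0) σ) (off : ℕ) :
    ∃ (π : UPoint → UPoint) (W : (ℕ → Lbl → ℝ) → UPoint → ℝ), IsMono (stageProd l) π ∧
      (∀ u, Continuous fun a => W a u) ∧
      (∀ (a : ℕ → Lbl → ℝ) (A : ℕ → ℝ), (∀ k, off ≤ k → k < off + l.length → ∀ t ∈ band, |a k t| ≤ A k) →
        ∀ u, |W a u| ≤ ∑ k ∈ Finset.Ico off (off + l.length), A k) ∧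
      ∀ a, run l off a 0 = stageProd l * clsDiag (W a) := by
  induction l generalizing off with
  | nil =>
    refine ⟨id, fun _ => 0, isMono_one, fun u => continuous_const, fun a A _ u => by simp,
      fun a => ?_⟩
    rw [clsDiag_zero, stageProd_nil, mul_one]
    rfl
  | cons s l ih =>
    obtain ⟨σ, hσ⟩ := hl s (List.mem_cons_self ..)
    obtain ⟨π, W, hπ, hW, hB, hrun⟩ := ih (fun t ht => hl t (List.mem_cons_of_mem _ ht)) (off + 1)
    refine ⟨σ ∘ π, fun a u => a off (σ (π u)).lbl + W a u, hσ.mul hπ, fun u => ?_,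
      fun a A hA u => ?_, fun a => ?_⟩
    · exact Continuous.add (f := fun a : ℕ → Lbl → ℝ => a off (σ (π u)).lbl)
        (g := fun a => W a u) ((continuous_apply _).comp (continuous_apply off)) (hW u)
    · have h1 := hA off le_rfl (by simp) _ (σ (π u)).mem
      have h2 := hB a A (fun k h h' => hA k (by omega) (by simp only [List.length_cons]; omega)) u
      rw [List.length_cons, show off + (l.length + 1) = off + 1 + l.length by omega,
        Finset.sum_eq_sum_Ico_succ_bot (by omega)]
      exact (abs_add_le _ _).trans (add_le_add h1 h2)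
    · rw [run, hrun, stageProd_cons, labDiag_eq]
      simp only [Pi.zero_apply]
      rw [clsDiag_mul_mono hσ, mul_assoc (s.bandMat 0), ← mul_assoc (clsDiag _) (stageProd l),
        clsDiag_mul_mono hπ, mul_assoc (stageProd l), clsDiag_mul, ← mul_assoc]
      rfl

/-- The sum of the diagonals on `[i, j)`. -/
def segSum (a : ℕ → Lbl → ℝ) (i j : ℕ) : Lbl → ℝ := fun t => ∑ k ∈ Finset.Ico i j, a k t

theorem onLbl_segSum_add (a : ℕ → Lbl → ℝ) {i j k : ℕ} (hij : i ≤ j) (hjk : j ≤ k) :
    onLbl (segSum a i j) + onLbl (segSum a j k) = onLbl (segSum a i k) :=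
  funext fun u => Finset.sum_Ico_consecutive (fun n => a n u.lbl) hij hjk

theorem segSum_succ (a : ℕ → Lbl → ℝ) (i : ℕ) : segSum a i (i + 1) = a i := by
  funext t
  simp [segSum]

/-- Stages that keep every class and do not depend on slot values. -/
def ClsFixed (s : StageSpec) : Prop :=
  IsMono (s.bandMat 0) id ∧ ∀ z, s.bandMat z = s.bandMat 0

theorem stageProd_cls {l : List StageSpec} (hl : ∀ s ∈ l, ClsFixed s) :
    IsMono (stageProd l) id := by
  induction l with
  | nil => exact isMono_one
  | cons s l ih =>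
    have := (hl s (List.mem_cons_self ..)).1.mul (ih fun t ht => hl t (List.mem_cons_of_mem _ ht))
    exact this

theorem run_cls {l : List StageSpec} (hl : ∀ s ∈ l, ClsFixed s) (off : ℕ) (a : ℕ → Lbl → ℝ)
    (z : ℕ → ℂ) :
    run l off a z = clsDiag (onLbl (segSum a off (off + l.length))) * stageProd l := by
  induction l generalizing off with
  | nil =>
    have e : onLbl (segSum a off (off + ([] : List StageSpec).length)) = 0 := by
      funext u
      simp [segSum]
    rw [e, clsDiag_zero, stageProd_nil, mul_one]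
    rfl
  | cons s l ih =>
    have hs := hl s (List.mem_cons_self ..)
    rw [run, ih (fun t ht => hl t (List.mem_cons_of_mem _ ht)), hs.2, stageProd_cons, labDiag_eq,
      List.length_cons, show off + (l.length + 1) = off + 1 + l.length by omega,
      ← onLbl_segSum_add a (show off ≤ off + 1 by omega)
        (show off + 1 ≤ off + 1 + l.length by omega), segSum_succ, ← clsDiag_mul]
    simp only [mul_assoc]
    rw [← mul_assoc (s.bandMat 0) (clsDiag _), ← clsDiag_commute hs.1, mul_assoc]

/-- Entries only from the labels of `Y` to the labels of `X`. -/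
def LabSupp (X Y : UPoint) (Z : Matrix BPt BPt ℂ) : Prop :=
  ∀ x y, Z x y ≠ 0 → (uOf x).lbl = X.lbl ∧ (uOf y).lbl = Y.lbl

theorem LabSupp.sum {X Y : UPoint} {ι : Type*} (l : List ι) {Z : ι → Matrix BPt BPt ℂ}
    (h : ∀ i ∈ l, LabSupp X Y (Z i)) : LabSupp X Y (l.map Z).sum := by
  induction l with
  | nil => intro x y hxy; simp at hxy
  | cons i l ih =>
    intro x y hxy
    rw [List.map_cons, List.sum_cons, Matrix.add_apply] at hxy
    by_cases h1 : Z i x y = 0
    · exact ih (fun j hj => h j (List.mem_cons_of_mem _ hj)) x y (by simpa [h1] using hxy)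
    · exact h i (List.mem_cons_self ..) x y h1

theorem LabSupp.sandwich {X Y : UPoint} {A B Z : Matrix BPt BPt ℂ} (hA : IsMono A id)
    (hB : IsMono B id) (hZ : LabSupp X Y Z) : LabSupp X Y (A * Z * B) := by
  intro x y hxy
  rw [Matrix.mul_apply] at hxy
  obtain ⟨k, -, hk⟩ := Finset.exists_ne_zero_of_sum_ne_zero hxy
  rw [Matrix.mul_apply] at hk
  obtain ⟨j, -, hj⟩ := Finset.exists_ne_zero_of_sum_ne_zero (left_ne_zero_of_mul hk)
  have e1 : uOf x = uOf j := Classical.byContradiction fun e => left_ne_zero_of_mul hj (hA.2 _ _ e)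
  have e2 : uOf k = uOf y := Classical.byContradiction fun e => right_ne_zero_of_mul hk (hB.2 _ _ e)
  have := hZ j k (right_ne_zero_of_mul hj)
  rw [e1, ← e2]
  exact this

theorem LabSupp.mul_zero {X Y : UPoint} (h : X.lbl ≠ Y.lbl) {Z Z' : Matrix BPt BPt ℂ}
    (hZ : LabSupp X Y Z) (hZ' : LabSupp X Y Z') : Z * Z' = 0 := by
  ext x y
  rw [Matrix.mul_apply, Matrix.zero_apply]
  refine Finset.sum_eq_zero fun k _ => ?_
  by_contra hk
  exact h ((hZ' k y (right_ne_zero_of_mul hk)).1.symm.trans (hZ x k (left_ne_zero_of_mul hk)).2)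

/-- A diagonal of the labels passes through a matrix between two labels. -/
theorem clsDiag_mul_one_add {X Y : UPoint} {Z : Matrix BPt BPt ℂ} (h : UPoint → ℝ)
    (hZ : ∀ x y, Z x y ≠ 0 → h (uOf x) = h X ∧ h (uOf y) = h Y) :
    clsDiag h * (1 + Z) = (1 + Real.exp (h Y - h X) • Z) * clsDiag h := by
  rw [Matrix.mul_add, Matrix.add_mul, Matrix.mul_one, Matrix.one_mul]
  refine congrArg (clsDiag h + ·) ?_
  ext x y
  rw [clsDiag, diagonal_mul, mul_diagonal, Matrix.smul_apply, Complex.real_smul]
  by_cases hz : Z x y = 0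
  · simp [hz]
  · obtain ⟨e1, e2⟩ := hZ x y hz
    rw [e1, e2, mul_right_comm, ← Complex.ofReal_mul, ← Real.exp_add,
      show h Y - h X + -h Y = -h X by ring]

theorem clsDiag_mul_one_add_lbl {X Y : UPoint} {Z : Matrix BPt BPt ℂ} (f : Lbl → ℝ)
    (hZ : LabSupp X Y Z) :
    clsDiag (onLbl f) * (1 + Z) = (1 + Real.exp (f Y.lbl - f X.lbl) • Z) * clsDiag (onLbl f) :=
  clsDiag_mul_one_add (onLbl f) fun x y h =>
    ⟨congrArg f (hZ x y h).1, congrArg f (hZ x y h).2⟩

end Vale.Agent.P225
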