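import Vale.Agent.P225.Plan.Span

/-!
P225, module D: the real structure on the band, and the corrections between two classes.
-/

noncomputable section

namespace Vale.Agent.P225

open Matrix SU2 NormedSpace
open scoped ComplexOrder Matrix.Norms.L2Operator

attribute [local irreducible] band

/-- A left inverse by the adjoint is a right inverse. -/
theorem adjoint_right_inv {n : Type*} [Fintype n] [DecidableEq n] {M : Matrix n n ℂ}
    (hu : Mᴴ * M = 1) : M * Mᴴ = 1 := mul_eq_one_comm.1 hu

theorem flipPnt_lab {K : ℕ} (y : PntK K) : lab (flipPnt y).out = lab y.out := rfl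

/-- A sum over all points that only sees the band is a sum over band points. -/
theorem sum_bpt {f : PntK 20 → ℂ} (h : ∀ z, lab z.out ∉ band → f z = 0) :
    ∑ a : BPt, f a.1 = ∑ z, f z := by
  rw [← Finset.sum_subtype (Finset.univ.filter fun z : PntK 20 => lab z.out ∈ band) (by simp) f]
  exact Finset.sum_filter_of_ne fun z _ hzf => not_not.1 fun e => hzf (h z e)

theorem bandTheta_class {x y : BPt} (h : bandTheta x y ≠ 0) : uOf x = uOf y := by
  rw [bandTheta_apply] at h
  split_ifs at h with he
  · rw [he, uOf_eq_iff, bcrd_thPt, cls_thCrd (bcrd_valid y)]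
  · exact absurd rfl h

/-! Closure properties of the real matrices. -/

theorem map_star_one {m : Type*} [DecidableEq m] : (1 : Matrix m m ℂ).map star = 1 :=
  Matrix.map_one star (star_zero ℂ) (star_one ℂ)

theorem IsRealBand.one : IsRealBand 1 := by
  unfold IsRealBand
  rw [map_star_one, mul_one, one_mul]

theorem IsRealBand.mul {M N : Matrix BPt BPt ℂ} (hM : IsRealBand M) (hN : IsRealBand N) :
    IsRealBand (M * N) := by
  unfold IsRealBand at *
  rw [map_star_mul, ← mul_assoc, hM, mul_assoc, hN, mul_assoc]

theorem IsRealBand.adjoint {M : Matrix BPt BPt ℂ} (hM : IsRealBand M) (hu : Mᴴ * M = 1) :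
    IsRealBand Mᴴ := by
  unfold IsRealBand at *
  have hu' : M * Mᴴ = 1 := adjoint_right_inv hu
  have e : M.map star * (Mᴴ).map star = 1 := by
    rw [← map_star_mul, hu', map_star_one]
  have h1 : bandTheta * (Mᴴ).map star = Mᴴ * (M * bandTheta) * (Mᴴ).map star := by
    rw [← mul_assoc Mᴴ M, hu, one_mul]
  rw [h1, ← hM, ← mul_assoc Mᴴ bandTheta, mul_assoc (Mᴴ * bandTheta), e, mul_one]

theorem IsRealBand.add {M N : Matrix BPt BPt ℂ} (hM : IsRealBand M) (hN : IsRealBand N) :
    IsRealBand (M + N) := by
  unfold IsRealBand at *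
  rw [Matrix.map_add _ star_add, mul_add, add_mul, hM, hN]

theorem IsRealBand.smul {M : Matrix BPt BPt ℂ} (hM : IsRealBand M) (r : ℝ) :
    IsRealBand (r • M) := by
  unfold IsRealBand at *
  have : (r • M).map star = r • M.map star := by
    ext i j
    simp
  rw [this, Matrix.mul_smul, Matrix.smul_mul, hM]

theorem IsRealBand.zero : IsRealBand 0 := by
  unfold IsRealBand
  rw [Matrix.map_zero star (star_zero ℂ), mul_zero, zero_mul]

theorem extBlk_real {β : Finset (ℕ × ℕ)} {M : BlkAlg β} (hM : IsTarget M) (p : ℕ × ℕ) :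
    IsRealBlk p (extBlk M p) := by
  unfold extBlk
  split_ifs with h
  · exact (hM ⟨p, h⟩).1
  · show _ = _
    rw [map_star_one, mul_one, one_mul]

/-- The signed flip on truncated points. -/
def flipMat (K : ℕ) : Op (PntK K) := fun a b => if a = flipPnt b then flipPntSgn b else 0

theorem thetaMat_tess_mul (K : ℕ) :
    thetaMat K * (tessMat K).map star = tessMat K * flipMat K := by
  rw [thetaMat_tess]
  ext a b
  rw [Matrix.mul_apply, Finset.sum_eq_single (flipPnt b)]
  · show _ = _ * (if _ then _ else _)
    rw [if_pos rfl, mul_comm]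
  · intro j _ hj
    show _ * (if _ then _ else _) = _
    rw [if_neg hj, mul_zero]
  · exact fun h => absurd (Finset.mem_univ _) h

/-- A real family of blocks gives a real band matrix. -/
theorem bandOf_real (G : Fin 3) {F : ∀ p, BlkMat p} (hF : ∀ p, IsRealBlk p (F p)) :
    IsRealBand (bandOf G F) := by
  set T := tessMat 20 with hT
  set N := Tᴴ * gaugeMat 20 G F * T with hN
  set S : Op (PntK 20) := flipMat 20 with hS
  have hθ : thetaMat 20 * T.map star = T * S := thetaMat_tess_mul 20
  have hTT : T * Tᴴ = 1 := tessMat_unitary.2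
  have hTN : gaugeMat 20 G F * T = T * N := by
    rw [hN, ← mul_assoc, ← mul_assoc, hTT, one_mul]
  have key : S * N.map star = N * S := by
    have e : T * (S * N.map star) = T * (N * S) := by
      rw [← mul_assoc, ← hθ, mul_assoc, ← map_star_mul, ← hTN, map_star_mul, ← mul_assoc,
        gaugeMat_real hF, mul_assoc, hθ, ← mul_assoc, hTN, mul_assoc]
    have := congrArg (Tᴴ * ·) e
    simpa only [← mul_assoc, tessMat_unitary.1, hT, one_mul] using this
  have hb : ∀ x y : BPt, bandOf G F x y = N x.1 y.1 := fun x y => by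
    rw [bandOf_eq, hN, gaugeMat_tess]; rfl
  have hSb : ∀ x y : BPt, bandTheta x y = S x.1 y.1 := fun x y => by
    rw [bandTheta_apply, ← flipPntSgn_eq, hS]
    exact if_congr Subtype.ext_iff rfl rfl
  have hS0 : ∀ a b : PntK 20, lab a.out ≠ lab b.out → S a b = 0 := fun a b h =>
    if_neg fun e => h (by rw [e, flipPnt_lab])
  unfold IsRealBand
  ext x y
  have := congrFun (congrFun key x.1) y.1
  rw [Matrix.mul_apply, Matrix.mul_apply] at this ⊢
  simp only [Matrix.map_apply, hb, hSb] at this ⊢
  rw [sum_bpt (f := fun z => S x.1 z * star (N z y.1)) fun z hz => by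
      rw [hS0 x.1 z fun e => hz (by rw [← e]; exact x.2), zero_mul],
    sum_bpt (f := fun z => N x.1 z * S z y.1) fun z hz => by
      rw [hS0 z y.1 fun e => hz (by rw [e]; exact y.2), mul_zero]]
  exact this

theorem StageOK.real {s : StageSpec} (h : StageOK s) (z : ℂ) : IsRealBand (s.bandMat z) :=
  bandOf_real _ fun p => extBlk_real (h.target z) p

/-! The part between two classes. -/

open Classical in
/-- The entries from the class `Q` to the class `P`. -/
def classPart (P Q : UPoint) : Matrix BPt BPt ℂ →ₗ[ℝ] Matrix BPt BPt ℂ where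
  toFun M := Matrix.of fun x y => if uOf x = P ∧ uOf y = Q then M x y else 0
  map_add' M N := by
    ext x y
    simp only [Matrix.add_apply, Matrix.of_apply]
    split_ifs <;> simp
  map_smul' r M := by
    ext x y
    simp only [Matrix.smul_apply, Matrix.of_apply, RingHom.id_apply]
    split_ifs <;> simp

theorem classPart_apply (P Q : UPoint) (M : Matrix BPt BPt ℂ) (x y : BPt)
    [Decidable (uOf x = P ∧ uOf y = Q)] :
    classPart P Q M x y = if uOf x = P ∧ uOf y = Q then M x y else 0 := by
  simp only [classPart, LinearMap.coe_mk, AddHom.coe_mk, Matrix.of_apply]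
  congr

theorem classPart_supp {P Q : UPoint} {M : Matrix BPt BPt ℂ} {x y : BPt}
    (h : classPart P Q M x y ≠ 0) : uOf x = P ∧ uOf y = Q := by
  classical
  rw [classPart_apply] at h
  exact Classical.byContradiction fun hc => h (if_neg hc)

theorem classPart_real {P Q : UPoint} {M : Matrix BPt BPt ℂ} (hM : IsRealBand M) :
    IsRealBand (classPart P Q M) := by
  classical
  unfold IsRealBand at *
  ext x y
  have := congrFun (congrFun hM x) y
  rw [Matrix.mul_apply, Matrix.mul_apply] at this ⊢
  simp only [Matrix.map_apply, classPart_apply, apply_ite star, star_zero] at this ⊢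
  by_cases hc : uOf x = P ∧ uOf y = Q
  · refine (Finset.sum_congr rfl fun z _ => ?_).trans (this.trans (Finset.sum_congr rfl fun z _ => ?_))
    · by_cases hz : bandTheta x z = 0
      · rw [hz, zero_mul, zero_mul]
      · rw [if_pos ⟨(bandTheta_class hz).symm.trans hc.1, hc.2⟩]
    · by_cases hz : bandTheta z y = 0
      · rw [hz, mul_zero, mul_zero]
      · rw [if_pos ⟨hc.1, (bandTheta_class hz).trans hc.2⟩]
  · rw [Finset.sum_eq_zero fun z _ => ?_, Finset.sum_eq_zero fun z _ => ?_]
    · by_cases hz : bandTheta z y = 0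
      · rw [hz, mul_zero]
      · rw [if_neg fun e => hc ⟨e.1, (bandTheta_class hz).symm.trans e.2⟩, zero_mul]
    · by_cases hz : bandTheta x z = 0
      · rw [hz, zero_mul]
      · rw [if_neg fun e => hc ⟨(bandTheta_class hz).trans e.1, e.2⟩, mul_zero]

theorem offSpace_spec {M : Matrix BPt BPt ℂ} (hM : M ∈ offSpace) :
    IsRealBand M ∧
      ∀ x y, uOf x = uOf y ∨ parity (uOf x).lbl ≠ parity (uOf y).lbl → M x y = 0 := by
  refine Submodule.span_induction (fun _ h => h) ⟨IsRealBand.zero, fun _ _ _ => rfl⟩
    (fun a b _ _ ha hb => ⟨ha.1.add hb.1, fun x y h => ?_⟩)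
    (fun r a _ ha => ⟨ha.1.smul r, fun x y h => ?_⟩) hM
  · rw [Matrix.add_apply, ha.2 x y h, hb.2 x y h, add_zero]
  · rw [Matrix.smul_apply, ha.2 x y h, smul_zero]

theorem classPart_mem (P Q : UPoint) {M : Matrix BPt BPt ℂ} (hM : M ∈ offSpace) :
    classPart P Q M ∈ offSpace := by
  classical
  refine Submodule.subset_span ⟨classPart_real (offSpace_spec hM).1, fun x y h => ?_⟩
  rw [classPart_apply, (offSpace_spec hM).2 x y h, ite_self]

/-- The same on the space of corrections. -/
def offPart (P Q : UPoint) : offSpace →ₗ[ℝ] offSpace :=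
  ((classPart P Q).comp offSpace.subtype).codRestrict offSpace fun v => classPart_mem P Q v.2

theorem offPart_coe (P Q : UPoint) (v : offSpace) :
    ((offPart P Q v : offSpace) : Matrix BPt BPt ℂ) = classPart P Q v := rfl

/-- Finitely many unsigned points. -/
instance : Fintype UPoint := Fintype.ofFinite _

open Classical in
/-- All ordered pairs of different classes of one parity. -/
def offPairs : Finset (UPoint × UPoint) :=
  Finset.univ.filter fun e => parity e.1.lbl = parity e.2.lbl ∧ e.1 ≠ e.2

theorem mem_offPairs {e : UPoint × UPoint} :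
    e ∈ offPairs ↔ parity e.1.lbl = parity e.2.lbl ∧ e.1 ≠ e.2 := by
  classical
  simp [offPairs]

theorem sum_offPart : ∑ e ∈ offPairs, offPart e.1 e.2 = LinearMap.id := by
  classical
  refine LinearMap.ext fun v => Subtype.ext ?_
  rw [LinearMap.sum_apply, LinearMap.id_apply, AddSubmonoidClass.coe_finsetSum]
  ext x y
  rw [Matrix.sum_apply, Finset.sum_eq_single (uOf x, uOf y)]
  · rw [offPart_coe, classPart_apply, if_pos ⟨rfl, rfl⟩]
  · intro e _ he
    rw [offPart_coe, classPart_apply, if_neg fun h => he (Prod.ext h.1.symm h.2.symm)]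
  · intro he
    rw [offPart_coe, classPart_apply, if_pos ⟨rfl, rfl⟩]
    refine (offSpace_spec v.2).2 x y ?_
    by_contra hc
    rw [not_or, not_not] at hc
    exact he (mem_offPairs.2 ⟨hc.2, hc.1⟩)

end Vale.Agent.P225
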