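import Vale.Agent.P225.Plan.Span.Flip

/-!
P225, module D: in the frame of a slot pair every real matrix between the two classes is a
combination of slot matrices moved by stages permuting only inside classes.
-/

noncomputable section

namespace Vale.Agent.P225

open Matrix SU2 NormedSpace
open scoped ComplexOrder Matrix.Norms.L2Operator

attribute [local irreducible] band

/-- A finite family of conjugated slots with coefficients. -/
structure SlotFamily (X Y : UPoint) where
  n : ℕ
  pre : Fin n → List StageSpec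
  post : Fin n → List StageSpec
  slot : Fin n → StageSpec
  E : Fin n → ℂ →ₗ[ℝ] Matrix BPt BPt ℂ
  lam : Fin n → Matrix BPt BPt ℂ →ₗ[ℝ] ℂ
  preCls : ∀ i, ∀ s ∈ pre i, ClsStage s
  postCls : ∀ i, ∀ s ∈ post i, ClsStage s
  inv : ∀ i, stageProd (pre i) * stageProd (post i) = 1
  slotOK : ∀ i, StageOK (slot i)
  slotMat : ∀ i z, (slot i).bandMat z = 1 + E i z
  /-- Slot matrices only go from the labels of `Y` to the labels of `X`. -/
  support : ∀ i z x y, E i z x y ≠ 0 → lab x.1.out = X.lbl ∧ lab y.1.out = Y.lbl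
  span : ∀ v, IsRealBand v → (∀ x y, v x y ≠ 0 → uOf x = X ∧ uOf y = Y) →
    ∑ i, stageProd (pre i) * E i (lam i v) * stageProd (post i) = v

theorem exists_slot_family {G : Fin 3} {X Y : UPoint} (h : IsSlotPair G X Y) :
    Nonempty (SlotFamily X Y) := by
  obtain ⟨b, hb, hspan, hli⟩ :=
    exists_linearIndependent ℝ (Set.range (Gen.mat (t := X.lbl) (u := Y.lbl)))
  have hfin := hli.setFinite
  obtain ⟨n, e⟩ : ∃ n, Nonempty (Fin n ≃ b) := ⟨_, ⟨(@Fintype.equivFin b hfin.fintype).symm⟩⟩
  obtain ⟨e⟩ := e
  choose g hg using fun i => hb (e i).2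
  have hinj : LinearMap.ker (Fintype.linearCombination ℝ fun i => ((e i : b) : Matrix BPt BPt ℂ)) = ⊥ :=
    LinearMap.ker_eq_bot.2 (hli.comp e e.injective).fintypeLinearCombination_injective
  obtain ⟨L, hL⟩ := LinearMap.exists_leftInverse_of_injective _ hinj
  refine ⟨⟨n, fun i => (g i).pre, fun i => (g i).post, fun i => (g i).slot, fun i => (g i).E,
    fun i => ((LinearMap.toSpanSingleton ℝ ℂ (g i).z).comp ((LinearMap.proj i).comp L)),
    fun i => (g i).preCls, fun i => (g i).postCls, fun i => (g i).inv, fun i => (g i).slotOK,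
    fun i => (g i).slotMat, fun i => (g i).support, fun v hv hsup => ?_⟩⟩
  have hmem : v ∈ Submodule.span ℝ (Set.range fun i => ((e i : b) : Matrix BPt BPt ℂ)) := by
    rw [show (Set.range fun i => ((e i : b) : Matrix BPt BPt ℂ)) = b by
      rw [Set.range_comp' (Subtype.val) e, e.surjective.range_eq, Set.image_univ,
        Subtype.range_coe], hspan]
    have : v ∈ movedSpan X.lbl Y.lbl := by
      rw [sum_orb hv]
      refine Submodule.smul_mem _ _ (Submodule.sum_mem _ fun x _ => Submodule.sum_mem _ fun y _ => ?_)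
      by_cases hxy : v x y = 0
      · rw [hxy, map_zero]; exact zero_mem _
      · exact orb_mem h (hsup x y hxy).1 (hsup x y hxy).2 _
    exact this.1
  obtain ⟨c, rfl⟩ := (Submodule.mem_span_range_iff_exists_fun ℝ).1 hmem
  have hc : L (∑ i, c i • ((e i : b) : Matrix BPt BPt ℂ)) = c := LinearMap.congr_fun hL c
  refine Finset.sum_congr rfl fun i _ => ?_
  simp only [LinearMap.comp_apply, LinearMap.proj_apply, hc, LinearMap.toSpanSingleton_apply,
    map_smul, mul_smul_comm, smul_mul_assoc]
  exact congrArg _ (hg i)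

end Vale.Agent.P225
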