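import Vale.Agent.P225.System.Defs

/-!
P225, module D: cluster plans. A stage has a fixed tangent element, or a slot whose size is a
parameter. The backward map of a cluster on the band is `D₀ T₀ D₁ ⋯ T_{L-1} D_L` with diagonal
`D`'s depending only on the labels.
-/

noncomputable section

namespace Vale.Agent.P225

open Matrix SU2 NormedSpace
open scoped ComplexOrder Matrix.Norms.L2Operator

attribute [local irreducible] band

/-- The blocks of a gauge that meet the band. -/
@[irreducible] def bandBlocks (G : Fin 3) : Finset (ℕ × ℕ) := band.image fun t => (t (G + 1), t (G + 2))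

/-- Target data of a stage. -/
structure StageSpec where
  gauge : Fin 3
  X : BlkAlg (bandBlocks gauge)
  N : ℂ →ₗ[ℝ] BlkAlg (bandBlocks gauge)

/-- The backward map wanted from a stage. -/
def StageSpec.tgt (s : StageSpec) (z : ℂ) : BlkAlg (bandBlocks s.gauge) := exp s.X + s.N z

open Classical in
/-- Extension by the identity to all blocks. -/
def extBlk {β : Finset (ℕ × ℕ)} (M : BlkAlg β) (p : ℕ × ℕ) : BlkMat p :=
  if h : p ∈ β then M ⟨p, h⟩ else 1

/-- A gauge operator on the band, in the adapted basis. -/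
def bandOf (G : Fin 3) (F : ∀ p, BlkMat p) : Matrix BPt BPt ℂ :=
  adaptBasisᴴ * (Matrix.of fun x y : BPt => gaugeEntry G F x.1.out y.1.out) * adaptBasis

/-- The stage target on the band. -/
def StageSpec.bandMat (s : StageSpec) (z : ℂ) : Matrix BPt BPt ℂ :=
  bandOf s.gauge (extBlk (s.tgt z))

/-- The real structure on the band in the adapted basis. -/
def bandTheta : Matrix BPt BPt ℂ :=
  adaptBasisᴴ * (Matrix.of fun x y : BPt => thetaMat 20 x.1 y.1) * adaptBasis.map star

/-- Fixed by the real structure. -/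
def IsRealBand (M : Matrix BPt BPt ℂ) : Prop := bandTheta * M.map star = M * bandTheta

/-- A unitary sending the class `u` into the class `π u`. -/
def IsMono (M : Matrix BPt BPt ℂ) (π : UPoint → UPoint) : Prop :=
  Mᴴ * M = 1 ∧ ∀ x y, uOf x ≠ π (uOf y) → M x y = 0

/-- Matrices with only entries between different classes of one parity, fixed by the real
structure: exactly what has to be corrected. -/
def offSpace : Submodule ℝ (Matrix BPt BPt ℂ) :=
  Submodule.span ℝ {M | IsRealBand M ∧
    ∀ x y, uOf x = uOf y ∨ parity (uOf x).lbl ≠ parity (uOf y).lbl → M x y = 0}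

/-- A diagonal depending on the labels only. -/
def labDiag (a : Lbl → ℝ) : Matrix BPt BPt ℂ :=
  diagonal fun x => ((Real.exp (-a (lab x.1.out)) : ℝ) : ℂ)

/-- `D₀ T₀ D₁ ⋯ T_{L-1} D_L`, with slot values `z`. -/
def clusterProd (l : List StageSpec) (a : ℕ → Lbl → ℝ) (z : ℕ → ℂ) : Matrix BPt BPt ℂ :=
  ((List.range l.length).map fun k =>
      labDiag (a k) * ((l[k]?).map fun s => s.bandMat (z k)).getD 1).prod * labDiag (a l.length)

/-- What the other modules use of the plan of one cluster. -/
structure ClusterSpec (l : List StageSpec) (π : UPoint → UPoint) (C : ℝ) : Prop where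
  nonempty : l ≠ []
  tangent : ∀ s ∈ l, IsTangent s.X
  target : ∀ s ∈ l, ∀ z, IsTarget (s.tgt z)
  /-- Nothing leaks out of the band. -/
  closed : ∀ s ∈ l, ∀ z, ∀ (x : BPt) (y : Pnt), lab y ∉ band →
    gaugeEntry s.gauge (extBlk (s.tgt z)) x.1.out y = 0 ∧
      gaugeEntry s.gauge (extBlk (s.tgt z)) y x.1.out = 0
  mono : ∀ s ∈ l, ∃ σ, IsMono (s.bandMat 0) σ
  bound : ∀ s ∈ l, ∀ z, ‖s.bandMat z‖ ≤ 1 + C * ‖z‖
  /-- Without slots the cluster permutes the classes by `π` (from its end to its start). -/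
  perm : ∀ a, ∀ x y, uOf x ≠ π (uOf y) → clusterProd l a 0 x y = 0
  /-- Slot response: with favourable dwells every correction is produced exactly by slot values
  that are no larger and depend continuously on the diagonals. -/
  response : ∃ (n : ℕ) (R : (ℕ → Lbl → ℝ) → ℕ → (offSpace →ₗ[ℝ] ℂ))
      (parts : Fin n → (offSpace →ₗ[ℝ] offSpace)),
    (∀ k v, Continuous fun a => R a k v) ∧ (∑ e, parts e = LinearMap.id) ∧
      (∀ e v, ‖((parts e v : offSpace) : Matrix BPt BPt ℂ)‖ ≤ C * ‖(v : Matrix BPt BPt ℂ)‖) ∧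
      (n : ℝ) ≤ C ∧
      ∀ (a : ℕ → Lbl → ℝ) (A : ℕ → ℝ), (∀ k ≤ l.length, ∀ t ∈ band, |a k t| ≤ A k) →
        (∀ k, 1 ≤ k → k < l.length → ∀ X ∈ band, ∀ Y ∈ band, cas4 X < cas4 Y →
          parity X = parity Y → 2 * ∑ i ∈ Finset.range k, A i ≤ a k Y - a k X) →
        (∀ k v, ‖R a k v‖ ≤ C * ‖(v : Matrix BPt BPt ℂ)‖) ∧
          ∀ v, clusterProd l a (fun k => R a k v) =
            (List.ofFn fun e => 1 + ((parts e v : offSpace) : Matrix BPt BPt ℂ)).prod *
              clusterProd l a 0

end Vale.Agent.P225
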