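import Vale.Agent.P225.Plan.Entry

/-!
P225, module D: the stages used by the plans.
-/

noncomputable section

namespace Vale.Agent.P225

open Matrix SU2 NormedSpace
open scoped ComplexOrder Matrix.Norms.L2Operator

attribute [local irreducible] band

/-- What every stage needs for itself. -/
structure StageOK (s : StageSpec) : Prop where
  tangent : IsTangent s.X
  target : ∀ z, IsTarget (s.tgt z)
  closed : ∀ z, ∀ (x : BPt) (y : Pnt), lab y ∉ band →
    gaugeEntry s.gauge (extBlk (s.tgt z)) x.1.out y = 0 ∧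
      gaugeEntry s.gauge (extBlk (s.tgt z)) y x.1.out = 0

/-- A stage without slot acting monomially. -/
structure MonoStage (s : StageSpec) (f : Crd → Crd) (c : Crd → ℂ) : Prop where
  ok : StageOK s
  fixed : s.N = 0
  perm : IsBandPerm f c
  mat : ∀ z, s.bandMat z = monoBand f c

theorem mem_bandBlocks {G : Fin 3} {t : Lbl} (ht : t ∈ band) :
    (t (G + 1), t (G + 2)) ∈ bandBlocks G := by
  unfold bandBlocks
  exact Finset.mem_image_of_mem (fun t => (t (G + 1), t (G + 2))) ht

theorem exists_blkIdx {G : Fin 3} {z : Crd} (hz : z.Valid) {p : ℕ × ℕ}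
    (hp : (z.1 (G + 1), z.1 (G + 2)) = p) : ∃ w : BlkIdx p, bkey w = crdKey G z := by
  obtain ⟨x, rfl⟩ := exists_bcrd hz
  refine ⟨blkCast (show blkLab G x.1.out = p from hp) (ptBlk G x.1.out), ?_⟩
  rw [bkey_blkCast, bkey_ptBlk]
  rfl

theorem bkey_le {p : ℕ × ℕ} (w : BlkIdx p) : (bkey w).2 ≤ (bkey w).1 := Nat.lt_succ_iff.1 w.2.2

theorem bkey_blkFlip {p : ℕ × ℕ} (w : BlkIdx p) : bkey (blkFlip p w) = flKey (bkey w) := by
  refine Prod.ext rfl ?_
  by_cases h : (w.1.1 : ℕ) % 2 = 1 <;> simp [bkey, blkFlip, flKey, flipIdx, h, val_rev]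

/-- The real structure carries the action on a vector to its partner. -/
theorem real_mulVec {p : ℕ × ℕ} {M : BlkMat p} (hM : IsRealBlk p M) {x y : BlkIdx p} {r : ℂ}
    (h : M *ᵥ blkVec p x = r • blkVec p y) :
    M *ᵥ blkVec p (blkFlip p x) =
      (flipSgn (x.1.1 : ℕ) x.2 * star r * flipSgn (y.1.1 : ℕ) y.2) • blkVec p (blkFlip p y) := by
  set J := Matrix.kroneckerMap (· * ·) (conjJ p.1) (conjJ p.2) with hJ
  have hM' : J * M.map star = M * J := hM
  have e1 : M *ᵥ (J *ᵥ star (blkVec p x)) = J *ᵥ star (M *ᵥ blkVec p x) := by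
    rw [Matrix.mulVec_mulVec, ← hM', ← Matrix.mulVec_mulVec]
    congr 1
    ext i
    simp [Matrix.mulVec, dotProduct, star_sum]
  rw [h, hJ, blkVec_real, Matrix.mulVec_smul, star_smul, Matrix.mulVec_smul, blkVec_real,
    smul_smul] at e1
  have := congrArg (fun v => flipSgn (x.1.1 : ℕ) x.2 • v) e1
  simp only [smul_smul, flipSgn_sq, one_smul] at this
  rw [this, mul_assoc]

/-- A monomial element in one block gives a monomial stage. -/
theorem monoStage_of_blk {G : Fin 3} {p : bandBlocks G} {X : BlkAlg (bandBlocks G)}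
    (hX : IsTangent X) {g : Key → Key} {c : Key → ℂ} (h : BlkSpec p (exp X) g c)
    (hinj : ∀ w w' : BlkIdx p.1, g (bkey w) = g (bkey w') → w = w')
    (hunit : ∀ w : BlkIdx p.1, star (c (bkey w)) * c (bkey w) = 1)
    (hband : ∀ t : Lbl, (t (G + 1), t (G + 2)) = p.1 → ∀ i : ℕ,
      (Function.update t G (g (t G, i)).1 ∈ band ↔ t ∈ band)) :
    MonoStage ⟨G, X, 0⟩ (act G p.1 g) (actCoef G p.1 c) := by
  have htgt : ∀ z, (⟨G, X, 0⟩ : StageSpec).tgt z = exp X := fun z => by simp [StageSpec.tgt]
  have hlab : ∀ x y : Pnt, crd x = act G p.1 g (crd y) → (lab x ∈ band ↔ lab y ∈ band) := by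
    intro x y e
    have e1 : lab x = (act G p.1 g (crd y)).1 := congrArg Prod.fst e
    rw [e1, act]
    split_ifs with hp
    · exact hband _ hp _
    · rfl
  refine ⟨⟨hX, fun z => by rw [htgt]; exact exp_isTarget hX, fun z x y hy => ?_⟩, rfl,
    ⟨fun z hz => ?_, fun z w hz hw e => ?_, fun z hz => ?_⟩, fun z => ?_⟩
  · rw [htgt]
    constructor <;> refine gaugeEntry_eq_zero _ _ _ _ fun x' y' hx' hy' => ?_
    · rw [tessEntry_mono h, if_neg]
      intro e
      refine hy (hy' ▸ (hlab _ _ e).1 ?_)
      rw [hx']; exact x.2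
    · rw [tessEntry_mono h, if_neg]
      intro e
      refine hy (hx' ▸ (hlab _ _ e).2 ?_)
      rw [hy']; exact x.2
  · unfold act
    split_ifs with hp
    · refine ⟨(hband z.1 hp (z.2 G)).2 hz.1, fun k => ?_⟩
      by_cases hk : k = G
      · subst hk
        obtain ⟨w, hw⟩ := exists_blkIdx hz hp
        obtain ⟨w', hw', -⟩ := h.on w
        rw [hw] at hw'
        simp only [Function.update_self, ← hw']
        exact bkey_le w'
      · simp only [Function.update_of_ne hk]; exact hz.2 k
    · exact hz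
  · obtain ⟨o1, o2⟩ := fin3_succ_ne G
    have ho : ∀ k, k ≠ G → z.1 k = w.1 k ∧ z.2 k = w.2 k := fun k hk => by
      obtain ⟨a, b⟩ := act_other G p.1 g z hk
      obtain ⟨a', b'⟩ := act_other G p.1 g w hk
      rw [e] at a b
      exact ⟨a.symm.trans a', b.symm.trans b'⟩
    by_cases hp : (z.1 (G + 1), z.1 (G + 2)) = p.1
    · have hp' : (w.1 (G + 1), w.1 (G + 2)) = p.1 := by rw [← (ho _ o1).1, ← (ho _ o2).1]; exact hp
      obtain ⟨a, ha⟩ := exists_blkIdx hz hp
      obtain ⟨b, hb⟩ := exists_blkIdx hw hp'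
      refine crd_ext (G := G) ?_ ho
      rw [← ha, ← hb, hinj a b ?_]
      have e1 := congrArg (crdKey G) e
      rw [act, act, if_pos hp, if_pos hp'] at e1
      simpa [crdKey, ha, hb] using e1
    · have hp' : ¬(w.1 (G + 1), w.1 (G + 2)) = p.1 := by rwa [← (ho _ o1).1, ← (ho _ o2).1]
      rwa [act, act, if_neg hp, if_neg hp'] at e
  · unfold actCoef
    split_ifs with hp
    · obtain ⟨w, hw⟩ := exists_blkIdx hz hp
      rw [← hw]; exact hunit w
    · simp
  · ext x y
    rw [StageSpec.bandMat, htgt, bandOf_eq, tessEntry_mono h]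
    rfl

/-- A stage permuting only inside classes. -/
def ClsStage (s : StageSpec) : Prop :=
  ∃ f c, MonoStage s f c ∧ ∀ z : Crd, z.Valid → cls (f z) = cls z

/-- The band map of a list of stages without slot values. -/
def stageProd (l : List StageSpec) : Matrix BPt BPt ℂ := (l.map fun s => s.bandMat 0).prod

/-- The empty stage. -/
def idStage : StageSpec := ⟨0, 0, 0⟩

theorem idStage_spec : MonoStage idStage id (fun _ => 1) := by
  have htgt : ∀ z, idStage.tgt z = (1 : BlkAlg (bandBlocks idStage.gauge)) := fun z => by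
    show exp (0 : BlkAlg (bandBlocks (0 : Fin 3))) + (0 : ℂ →ₗ[ℝ] _) z = 1
    simp [exp_zero]
  have h1 : ∀ p, extBlk (1 : BlkAlg (bandBlocks (0 : Fin 3))) p = 1 := fun p => by
    unfold extBlk; split_ifs <;> rfl
  have htan : IsTangent (0 : BlkAlg (bandBlocks (0 : Fin 3))) := fun p => by
    refine ⟨?_, by simp, fun _ => rfl⟩
    simp [IsRealBlk]
  refine ⟨⟨htan, fun z => ?_, fun z x y hy => ?_⟩, rfl,
    ⟨fun z hz => hz, fun z w _ _ e => e, fun z _ => by simp⟩, fun z => ?_⟩
  · rw [htgt]
    show IsTarget (1 : BlkAlg (bandBlocks (0 : Fin 3)))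
    have := exp_isTarget htan
    rwa [exp_zero] at this
  · rw [htgt]
    have e : extBlk (1 : BlkAlg (bandBlocks idStage.gauge)) = fun _ => 1 := funext h1
    have hne : x.1.out ≠ y := fun e => hy (e ▸ x.2)
    rw [e, gaugeEntry_one, gaugeEntry_one, if_neg hne, if_neg (Ne.symm hne)]
    exact ⟨rfl, rfl⟩
  · ext x y
    rw [StageSpec.bandMat, htgt, bandOf_eq]
    simp only [monoBand, id_eq]
    by_cases h : SameBlk idStage.gauge x.1.out y.1.out
    · exact (tessEntry_one_apply h (h1 _)).trans rfl
    · rw [tessEntry, dif_neg h, if_neg]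
      exact fun e => h (crd_injective e ▸ ⟨rfl, rfl, rfl, rfl⟩)

/-- The key map of a signed exchange. -/
def swapKey (a b : Key) (k : Key) : Key :=
  if k = a then b else if k = flKey a then flKey b else if k = b then a
  else if k = flKey b then flKey a else k

/-- The stage realising a move. -/
theorem exists_swapStage {w : Swap} (hw : w.OK) :
    ∃ (s : StageSpec) (f : Crd → Crd) (c : Crd → ℂ), MonoStage s f c ∧
      ∀ z : Crd, z.Valid → cls (f z) = w.raw (cls z) := by
  obtain ⟨h1, h2, ht, hv, hpar, hi, hj⟩ := hw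
  set G := w.G
  by_cases hid : w.v = w.t G ∧ w.j = w.i
  · refine ⟨idStage, id, fun _ => 1, idStage_spec, fun z _ => ?_⟩
    unfold Swap.raw
    split_ifs with hb ha ha'
    · exact Prod.ext (by rw [hid.1, ← ha.1, Function.update_eq_self]; rfl)
        (by rw [hid.2, ← ha.2, Function.update_eq_self]; rfl)
    · exact absurd ⟨ha'.1.trans hid.1, ha'.2.trans hid.2⟩ ha
    · rfl
    · rfl
  set p : bandBlocks G := ⟨(w.t (G + 1), w.t (G + 2)), mem_bandBlocks ht⟩ with hp
  set za : Crd := (w.t, fun k => if k = G then w.i else 0)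
  set zb : Crd := (Function.update w.t G w.v, fun k => if k = G then w.j else 0)
  obtain ⟨o1, o2⟩ := fin3_succ_ne G
  have hza : za.Valid := ⟨ht, fun k => by
    show (if k = G then w.i else 0) ≤ w.t k
    split_ifs with h
    · subst h; exact lt_umult_le hi
    · exact Nat.zero_le _⟩
  have hzb : zb.Valid := ⟨hv, fun k => by
    show (if k = G then w.j else 0) ≤ Function.update w.t G w.v k
    split_ifs with h
    · subst h; rw [Function.update_self]; exact lt_umult_le hj
    · exact Nat.zero_le _⟩
  obtain ⟨x, hx⟩ := exists_blkIdx (G := G) (p := p.1) hza rfl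
  obtain ⟨y, hy⟩ := exists_blkIdx (G := G) (p := p.1) hzb (by simp [zb, p, o1, o2])
  replace hx : bkey x = (w.t G, w.i) := by simpa [za, crdKey] using hx
  replace hy : bkey y = (w.v, w.j) := by simpa [zb, crdKey] using hy
  have hxy : y ≠ x := fun e => hid (by rw [e, hx] at hy; simpa [eq_comm] using hy)
  have hxy' : y ≠ blkFlip p.1 x := fun e => by
    have := congrArg (fun k : Key => (k.1, unsIdx k.1 k.2)) (congrArg bkey e)
    simp only [bkey_blkFlip, hx, hy] at this
    rw [Prod.mk.injEq] at this
    refine hid ⟨this.1, ?_⟩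
    have h2 := this.2
    have e2 : (flKey (w.t G, w.i)).1 = w.t G := rfl
    rwa [unsIdx_self hj, e2, unsIdx_flKey (k := (w.t G, w.i)) (lt_umult_le hi),
      unsIdx_self hi] at h2
  obtain ⟨X, hX, hoff, r1, r2, r3⟩ := swap_target p (by show w.t (G + 1) ≠ 0; omega)
    (by show w.t (G + 2) ≠ 0; omega) x y hxy hxy'
  set a := bkey x
  set b := bkey y
  set s := flipSgn (x.1.1 : ℕ) x.2 * flipSgn (y.1.1 : ℕ) y.2 with hs
  set c : Key → ℂ := fun k =>
    if k = a then 1 else if k = flKey a then s else if k = b then -1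
    else if k = flKey b then -s else 1
  have hreal : IsRealBlk p.1 (exp X p) := (exp_isTarget hX p).1
  have r1' := real_mulVec hreal (r := 1) (by rw [r1, one_smul])
  have r2' := real_mulVec hreal (r := -1) (by rw [r2, neg_one_smul])
  have spec : BlkSpec p (exp X) (swapKey a b) c := by
    refine ⟨hoff, fun u => ?_⟩
    simp only [swapKey, c]
    by_cases c1 : bkey u = a
    · refine ⟨y, by rw [if_pos c1], ?_⟩
      rw [if_pos c1, bkey_injective c1, one_smul, r1]
    by_cases c2 : bkey u = flKey a
    · refine ⟨blkFlip p.1 y, by rw [if_neg c1, if_pos c2, bkey_blkFlip], ?_⟩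
      rw [if_neg c1, if_pos c2, bkey_injective (c2.trans (bkey_blkFlip x).symm), r1', star_one,
        mul_one]
    by_cases c3 : bkey u = b
    · refine ⟨x, by rw [if_neg c1, if_neg c2, if_pos c3], ?_⟩
      rw [if_neg c1, if_neg c2, if_pos c3, bkey_injective c3, r2, neg_one_smul]
    by_cases c4 : bkey u = flKey b
    · refine ⟨blkFlip p.1 x, by rw [if_neg c1, if_neg c2, if_neg c3, if_pos c4, bkey_blkFlip], ?_⟩
      rw [if_neg c1, if_neg c2, if_neg c3, if_pos c4,
        bkey_injective (c4.trans (bkey_blkFlip y).symm), r2']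
      congr 1
      rw [hs]; simp; ring
    refine ⟨u, by rw [if_neg c1, if_neg c2, if_neg c3, if_neg c4], ?_⟩
    rw [if_neg c1, if_neg c2, if_neg c3, if_neg c4, one_smul]
    exact r3 u (fun e => c1 (congrArg bkey e)) (fun e => c2 (by rw [e, bkey_blkFlip]))
      (fun e => c3 (congrArg bkey e)) (fun e => c4 (by rw [e, bkey_blkFlip]))
  have ha2 : a.2 ≤ a.1 := bkey_le x
  have hb2 : b.2 ≤ b.1 := bkey_le y
  have hab : b ≠ a := fun e => hxy (bkey_injective e)
  have hab' : b ≠ flKey a := fun e => hxy' (bkey_injective (e.trans (bkey_blkFlip x).symm))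
  have hab'' : flKey b ≠ a := fun e => hab' (by rw [← e, flKey_flKey hb2])
  have hff : flKey b ≠ flKey a := fun e => hab (by rw [← flKey_flKey hb2, e, flKey_flKey ha2])
  have hfix : flKey b = b ↔ flKey a = a := by
    have hp1 : w.t G % 2 = w.v % 2 := by
      have := congrFun hpar G
      simp only [parity, Function.update_self] at this
      have e1 := Nat.mod_two_eq_zero_or_one (w.t G)
      have e2 := Nat.mod_two_eq_zero_or_one w.v
      rcases e1 with e1 | e1 <;> rcases e2 with e2 | e2 <;> simp [e1, e2] at this ⊢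
    have f : ∀ k : Key, k.2 ≤ k.1 → (flKey k = k ↔ k.1 % 2 = 0) := fun k hk => by
      simp only [flKey, Prod.ext_iff, true_and]
      split_ifs <;> omega
    rw [f b hb2, f a ha2, hx, hy]
    simp only
    omega
  have hinv : ∀ k : Key, swapKey a b (swapKey a b k) = k := by
    intro k
    unfold swapKey
    by_cases c1 : k = a
    · subst c1; simp [hab, hab']
    by_cases c2 : k = flKey a
    · subst c2; simp only [if_neg c1, if_neg hab'', if_neg hff, if_true]
      split_ifs with h3
      · exact (hfix.1 h3).symm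
      · rfl
    by_cases c3 : k = b
    · subst c3; simp [c1, c2]
    by_cases c4 : k = flKey b
    · subst c4
      simp only [if_neg c1, if_neg c2, if_neg c3, if_true]
      split_ifs with h3
      · exact (hfix.2 h3).symm
      · rfl
    simp [c1, c2, c3, c4]
  have hlblk : ∀ k : Key, ((swapKey a b k).1 = k.1 ∧ swapKey a b k = k) ∨
      (k.1 = a.1 ∧ (swapKey a b k).1 = b.1) ∨ (k.1 = b.1 ∧ (swapKey a b k).1 = a.1) := by
    intro k
    unfold swapKey
    split_ifs with c1 c2 c3 c4
    · exact .inr (.inl ⟨by rw [c1], rfl⟩)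
    · exact .inr (.inl ⟨by rw [c2]; rfl, rfl⟩)
    · exact .inr (.inr ⟨by rw [c3], rfl⟩)
    · exact .inr (.inr ⟨by rw [c4]; rfl, rfl⟩)
    · exact .inl ⟨rfl, rfl⟩
  have hblock : ∀ (t : Lbl) (v : ℕ), (t (G + 1), t (G + 2)) = p.1 →
      Function.update t G v = Function.update w.t G v := by
    intro t v e
    rw [Prod.mk.injEq] at e
    funext k
    rcases fin3_trichotomy G k with rfl | rfl | rfl
    · simp
    · rw [Function.update_of_ne o1, Function.update_of_ne o1]; exact e.1
    · rw [Function.update_of_ne o2, Function.update_of_ne o2]; exact e.2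
  refine ⟨_, _, _, monoStage_of_blk hX spec (fun u u' e => bkey_injective ?_) (fun u => ?_)
    (fun t e i => ?_), fun z hz => ?_⟩
  · rw [← hinv (bkey u), e, hinv]
  · simp only [c]
    split_ifs <;> simp [hs, flipSgn_star, mul_mul_mul_comm, flipSgn_sq]
  · have et : Function.update w.t G (t G) = t := by rw [← hblock t _ e, Function.update_eq_self]
    have ha1 : Function.update w.t G a.1 ∈ band := by
      rw [hx]; simpa using ht
    have hb1 : Function.update w.t G b.1 ∈ band := by rw [hy]; exact hv
    rw [hblock t _ e]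
    rcases hlblk (t G, i) with ⟨h, -⟩ | ⟨h, h'⟩ | ⟨h, h'⟩
    · rw [h, et]
    · rw [h']
      exact iff_of_true hb1 (et ▸ (show t G = a.1 from h) ▸ ha1)
    · rw [h']
      exact iff_of_true ha1 (et ▸ (show t G = b.1 from h) ▸ hb1)
  · unfold act Swap.raw
    by_cases hb : (z.1 (G + 1), z.1 (G + 2)) = p.1
    · rw [if_pos hb, if_pos (show (cls z).1 (G + 1) = w.t (G + 1) ∧ (cls z).1 (G + 2) = w.t (G + 2)
        from ⟨congrArg Prod.fst hb, congrArg Prod.snd hb⟩)]
      have hzG := hz.2 G
      have upd : ∀ v i : ℕ, cls (Function.update z.1 G v, Function.update z.2 G i) =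
          (Function.update (cls z).1 G v, Function.update (cls z).2 G (unsIdx v i)) := by
        intro v i
        refine Prod.ext rfl (funext fun k => ?_)
        by_cases hk : k = G
        · subst hk; simp [cls]
        · simp [cls, hk]
      have ca : ((cls z).1 G = w.t G ∧ (cls z).2 G = w.i) ↔
          (crdKey G z = a ∨ crdKey G z = flKey a) := by
        rw [hx]
        constructor
        · rintro ⟨e1, e2⟩
          simp only [cls] at e1 e2
          have := key_cases (a := w.t G) (e1 ▸ hzG) (lt_umult_le hi)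
            (by rw [unsIdx_self hi, ← e2, e1])
          simpa [crdKey, e1] using this
        · rintro (e | e) <;> simp only [crdKey, Prod.ext_iff] at e <;> obtain ⟨e1, e2⟩ := e <;>
            refine ⟨e1, ?_⟩ <;> simp only [cls] <;> rw [e1, e2]
          · exact unsIdx_self hi
          · exact (unsIdx_flKey (k := (w.t G, w.i)) (lt_umult_le hi)).trans (unsIdx_self hi)
      have cb : ((cls z).1 G = w.v ∧ (cls z).2 G = w.j) ↔
          (crdKey G z = b ∨ crdKey G z = flKey b) := by
        rw [hy]
        constructor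
        · rintro ⟨e1, e2⟩
          simp only [cls] at e1 e2
          have := key_cases (a := w.v) (e1 ▸ hzG) (lt_umult_le hj)
            (by rw [unsIdx_self hj, ← e2, e1])
          simpa [crdKey, e1] using this
        · rintro (e | e) <;> simp only [crdKey, Prod.ext_iff] at e <;> obtain ⟨e1, e2⟩ := e <;>
            refine ⟨e1, ?_⟩ <;> simp only [cls] <;> rw [e1, e2]
          · exact unsIdx_self hj
          · exact (unsIdx_flKey (k := (w.v, w.j)) (lt_umult_le hj)).trans (unsIdx_self hj)
      rw [upd]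
      unfold swapKey
      by_cases c1 : crdKey G z = a
      · rw [if_pos c1, if_pos (ca.2 (.inl c1)), hy]; simp [unsIdx_self hj, G]
      by_cases c2 : crdKey G z = flKey a
      · rw [if_neg c1, if_pos c2, if_pos (ca.2 (.inr c2)), hy]
        have h' := unsIdx_flKey (k := (w.v, w.j)) (lt_umult_le hj)
        simp only [flKey] at h' ⊢
        rw [h', unsIdx_self hj]
      by_cases c3 : crdKey G z = b
      · rw [if_neg c1, if_neg c2, if_pos c3, if_neg (fun e => (ca.1 e).elim c1 c2),
          if_pos (cb.2 (.inl c3)), hx]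
        simp [unsIdx_self hi, G]
      by_cases c4 : crdKey G z = flKey b
      · rw [if_neg c1, if_neg c2, if_neg c3, if_pos c4, if_neg (fun e => (ca.1 e).elim c1 c2),
          if_pos (cb.2 (.inr c4)), hx]
        have h' := unsIdx_flKey (k := (w.t G, w.i)) (lt_umult_le hi)
        simp only [flKey] at h' ⊢
        rw [h', unsIdx_self hi]
      rw [if_neg c1, if_neg c2, if_neg c3, if_neg c4, if_neg (fun e => (ca.1 e).elim c1 c2),
        if_neg (fun e => (cb.1 e).elim c3 c4)]
      simp [cls, crdKey]
    · rw [if_neg hb, if_neg]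
      exact fun e => hb (Prod.ext e.1 e.2)

end Vale.Agent.P225
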